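import Vale.Agent.P283R.Tp.St
import Vale.Agent.P283R.Gr.Ab
import Vale.Agent.P283R.Gr.Cnt
import Mathlib.RingTheory.Localization.AsSubring
import Mathlib.RingTheory.Jacobson.Ring
import Mathlib.FieldTheory.FinTrdeg

/-!
# P283R: coordinates which diagonalise a subgroup of bounded index of the inertia group
-/

open Set IsLocalRing

noncomputable section

namespace Vale.Agent.P283R

open Vale.Agent.P287D

namespace Eg

variable {F : Type} [Field F] [Algebra ℂ F] {N : ℕ} {S : Subalgebra ℂ F}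
  {G : Subgroup (F ≃ₐ[ℂ] F)}

/-- the action on the coordinate ring -/
def resG (h : Stab G S) : G →* (S ≃ₐ[ℂ] S) where
  toFun σ :=
    { toFun := fun a => ⟨σ.1 a, h σ.1 σ.2 a a.2⟩
      invFun := fun a => ⟨(σ⁻¹).1 a, h _ (σ⁻¹).2 a a.2⟩
      left_inv := fun a => Subtype.ext (σ.1.symm_apply_apply a)
      right_inv := fun a => Subtype.ext (σ.1.apply_symm_apply a)
      map_mul' := fun a b => Subtype.ext (map_mul σ.1 (a : F) b)
      map_add' := fun a b => Subtype.ext (map_add σ.1 (a : F) b)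
      commutes' := fun c => Subtype.ext (σ.1.commutes c) }
  map_one' := rfl
  map_mul' _ _ := rfl

theorem resG_coe (h : Stab G S) (σ : G) (a : S) : (resG h σ a : F) = σ.1 a := rfl

theorem inr_iff (h : Stab G S) (p : Ideal S) (σ : G) :
    Inr S p σ ↔ ∀ a, resG h σ a - a ∈ p :=
  forall_congr' fun a => ⟨fun ⟨b, hb, e⟩ => (Subtype.ext e : resG h σ a - a = b) ▸ hb,
    fun k => ⟨_, k, rfl⟩⟩

/-- the inertia group -/
def ine (h : Stab G S) (p : Ideal S) : Subgroup G where
  carrier := {σ | ∀ a, resG h σ a - a ∈ p}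
  one_mem' a := by simp
  mul_mem' {σ τ} h1 h2 a := by
    have e : resG h (σ * τ) a - a = (resG h σ (resG h τ a) - resG h τ a) + (resG h τ a - a) := by
      rw [map_mul, AlgEquiv.mul_apply]; ring
    rw [e]
    exact add_mem (h1 _) (h2 _)
  inv_mem' {σ} h1 a := by
    have e : resG h σ⁻¹ a - a = -(resG h σ (resG h σ⁻¹ a) - resG h σ⁻¹ a) := by
      rw [← AlgEquiv.mul_apply, ← map_mul, mul_inv_cancel, map_one, AlgEquiv.one_apply]; ring
    rw [e]
    exact neg_mem (h1 _)

theorem frac (hS : Aff N S) : IsFractionRing S F := IsFractionRing.of_field S F hS.fr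

theorem ft (hS : Aff N S) : Algebra.FiniteType ℂ S := S.fg_iff_finiteType.1 hS.fg

theorem res_max (hS : Aff N S) (q : Ideal S) [q.IsMaximal] (a : S) :
    ∃ c : ℂ, a - algebraMap ℂ S c ∈ q := by
  have := ft hS
  let _ := Ideal.Quotient.field q
  have : Module.Finite ℂ (S ⧸ q) := finite_of_finite_type_of_isJacobsonRing ℂ (S ⧸ q)
  obtain ⟨c, hc⟩ := (IsAlgClosed.algebraMap_bijective_of_isIntegral (k := ℂ) (K := S ⧸ q)).2
    (Ideal.Quotient.mk q a)
  exact ⟨c, Ideal.Quotient.eq.1 hc.symm⟩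

/-- the local ring -/
abbrev Lr [IsFractionRing S F] (p : Ideal S) [p.IsPrime] : Type :=
  Localization.subalgebra.ofField F p.primeCompl p.primeCompl_le_nonZeroDivisors

instance [IsFractionRing S F] (p : Ideal S) [p.IsPrime] : IsLocalRing (Lr p) :=
  IsLocalization.AtPrime.isLocalRing _ p

/-- the residue map -/
def rs [IsFractionRing S F] (p : Ideal S) [p.IsPrime] : S →ₐ[ℂ] ResidueField (Lr p) :=
  (IsScalarTower.toAlgHom ℂ (Lr p) (ResidueField (Lr p))).comp (IsScalarTower.toAlgHom ℂ S (Lr p))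

theorem rs_zero [IsFractionRing S F] (p : Ideal S) [p.IsPrime] (a : S) : rs p a = 0 ↔ a ∈ p :=
  (residue_eq_zero_iff _).trans (IsLocalization.AtPrime.to_map_mem_maximal_iff (Lr p) p a)

theorem ess [IsFractionRing S F] (hS : Aff N S) (p : Ideal S) [p.IsPrime] :
    Algebra.EssFiniteType ℂ (Lr p) :=
  have := ft hS
  have := Algebra.EssFiniteType.of_isLocalization (Lr p) p.primeCompl
  .comp ℂ S _

/-- invariant functions whose residues are a transcendence basis -/
theorem exists_tb [IsFractionRing S F] (hS : Aff N S) [Finite G] (h : Stab G S) (p : Ideal S)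
    [p.IsPrime] : ∃ (r : ℕ) (t : Fin r → S), (∀ i, Fix G (t i)) ∧
      IsTranscendenceBasis ℂ fun l => rs p (t l) := by
  classical
  have := ess hS p
  have : Algebra.EssFiniteType ℂ (ResidueField (Lr p)) :=
    .of_surjective (IsScalarTower.toAlgHom ℂ (Lr p) _) residue_surjective
  have := Fintype.ofFinite G
  let s : Set (ResidueField (Lr p)) := rs p '' {a | Fix G (a : F)}
  let B := Algebra.adjoin ℂ s
  have h1 : ∀ a : S, IsAlgebraic B (rs p a) := by
    intro a
    let P : Polynomial S := ∏ σ : G, (Polynomial.X - Polynomial.C (resG h σ a))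
    have hm : P.Monic := Polynomial.monic_prod_of_monic _ _ fun σ _ => Polynomial.monic_X_sub_C _
    have hc : ∀ n, Fix G (P.coeff n : F) := by
      intro n τ hτ
      have e : P.map (resG h ⟨τ, hτ⟩ : S →+* S) = P := by
        simp only [P, Polynomial.map_prod, Polynomial.map_sub, Polynomial.map_X, Polynomial.map_C]
        refine Fintype.prod_equiv (Equiv.mulLeft (⟨τ, hτ⟩ : G)) _
          (fun σ => Polynomial.X - Polynomial.C (resG h σ a)) fun σ => ?_
        rw [Equiv.coe_mulLeft, map_mul (resG h), AlgEquiv.mul_apply]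
        rfl
      have e2 : resG h ⟨τ, hτ⟩ (P.coeff n) = P.coeff n := by
        conv_rhs => rw [← e, Polynomial.coeff_map]
        rfl
      exact congrArg Subtype.val e2
    have hl : P.map (rs p).toRingHom ∈ Polynomial.lifts (algebraMap B _) :=
      (Polynomial.lifts_iff_coeff_lifts _).2 fun n =>
        ⟨⟨_, Algebra.subset_adjoin ⟨_, hc n, rfl⟩⟩, (Polynomial.coeff_map (rs p).toRingHom n).symm⟩
    obtain ⟨Q, q1, -, q2⟩ := Polynomial.lifts_and_degree_eq_and_monic hl (hm.map _)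
    refine ⟨Q, q2.ne_zero, ?_⟩
    rw [Polynomial.aeval_def, ← Polynomial.eval_map, q1, Polynomial.eval_map]
    have e3 : P.eval a = 0 := by
      simp only [P, Polynomial.eval_prod]
      exact Finset.prod_eq_zero (Finset.mem_univ 1) (by simp)
    have e4 := Polynomial.eval₂_at_apply (p := P) (rs p).toRingHom a
    rw [e3, map_zero] at e4
    exact e4
  have : Algebra.IsAlgebraic B (ResidueField (Lr p)) := ⟨fun y => by
    obtain ⟨b, rfl⟩ := residue_surjective y
    obtain ⟨a, u, rfl⟩ := IsLocalization.exists_mk'_eq p.primeCompl b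
    have hu : rs p u ≠ 0 := fun k => u.2 ((rs_zero p _).1 k)
    have e : residue (Lr p) (IsLocalization.mk' (Lr p) a u) = rs p a * (rs p u)⁻¹ := by
      rw [eq_mul_inv_iff_mul_eq₀ hu]
      exact (map_mul (residue (Lr p)) _ _).symm.trans
        (congrArg (residue (Lr p)) (IsLocalization.mk'_spec (Lr p) a u))
    rw [e]
    exact (h1 a).mul (h1 u).inv⟩
  obtain ⟨b, hb, hB⟩ := exists_isTranscendenceBasis_subset (R := ℂ) s
  have := finite_of_isTranscendenceBasis hB
  have := Fintype.ofFinite b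
  choose ρ hρ1 hρ2 using fun u : b => hb u.2
  let ι := (Fintype.equivFin b).symm
  refine ⟨_, fun j => ρ (ι j), fun j => hρ1 _, ?_⟩
  simp only [hρ2]
  exact (isTranscendenceBasis_equiv ι).2 hB

/-- generators of the maximal ideal of the local ring, taken from a generating set -/
theorem gens [IsFractionRing S F] (hS : Aff N S) (hsm : Algebra.Smooth ℂ S) (p : Ideal S)
    [p.IsPrime] (E : Set S) (hE : Ideal.span E = p) (h0 : (0 : S) ∈ E) {r : ℕ} (t : Fin r → S)
    (ht : IsTranscendenceBasis ℂ fun l => rs p (t l)) : r ≤ N ∧ ∀ k, N ≤ k + r →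
      ∃ x : Fin k → S, (∀ j, x j ∈ E) ∧ ∀ a ∈ p, ∃ u ∉ p, u * a ∈ Ideal.span (range x) := by
  classical
  have := ft hS
  have := ess hS p
  have := Algebra.FiniteType.isNoetherianRing ℂ S
  have : IsNoetherianRing (Lr p) := IsLocalization.isNoetherianRing p.primeCompl _ this
  have := Algebra.FormallySmooth.of_isLocalization (Rₘ := Lr p) p.primeCompl
  have := Algebra.FormallySmooth.comp ℂ S (Lr p)
  have hE' : Ideal.span (algebraMap S (Lr p) '' E) = maximalIdeal (Lr p) := by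
    rw [← Ideal.map_span, hE]
    exact IsLocalization.AtPrime.map_eq_maximalIdeal p (Lr p)
  obtain ⟨e, x, h1, h2, h3⟩ := Gr.pick_basis _ hE'
  have h4 := Gr.cnt hS.ff x (fun j => h2 ▸ Ideal.subset_span ⟨j, rfl⟩) h3
    (fun l => algebraMap S (Lr p) (t l)) ht
  refine ⟨by omega, fun k hk => ?_⟩
  choose y hy1 hy2 using h1
  have hek : e ≤ k := by omega
  let ι := Fin.castLEEmb hek
  refine ⟨Function.extend ι y 0, fun i => ?_, fun a ha => ?_⟩
  · by_cases hi : ∃ x, ι x = i
    · obtain ⟨x, rfl⟩ := hi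
      rw [ι.injective.extend_apply]
      exact hy1 x
    · rw [Function.extend_apply' _ _ _ hi]
      exact h0
  · have h5 : algebraMap S (Lr p) a ∈ (Ideal.span (range y)).map (algebraMap S (Lr p)) := by
      rw [Ideal.map_span, ← range_comp, show algebraMap S (Lr p) ∘ y = x from funext hy2, h2]
      exact (IsLocalization.AtPrime.to_map_mem_maximal_iff (Lr p) p a).2 ha
    obtain ⟨u, hu, h6⟩ := (IsLocalization.algebraMap_mem_map_algebraMap_iff p.primeCompl _ _ _).1 h5
    refine ⟨u, hu, Ideal.span_mono ?_ h6⟩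
    rintro _ ⟨j, rfl⟩
    exact ⟨ι j, ι.injective.extend_apply _ _ _⟩

/-- a commutative subgroup of bounded index of the inertia group -/
theorem comm (N : ℕ) : ∃ J : ℕ, ∀ (F : Type) [Field F] [Algebra ℂ F] (S : Subalgebra ℂ F)
    (G : Subgroup (F ≃ₐ[ℂ] F)) (p : Ideal S) (h : Stab G S), Aff N S → Algebra.Smooth ℂ S →
      Finite G → p ≠ ⊤ → ∃ A : Subgroup (ine h p), A.index ≤ J ∧ ∀ a b : A, a * b = b * a := by
  obtain ⟨J, -, key⟩ := Gr.eig_ideal N
  refine ⟨J, fun F _ _ S G p h hS hsm _ hp => ?_⟩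
  have := frac hS
  have := ft hS
  have := Algebra.FiniteType.isNoetherianRing ℂ S
  obtain ⟨q, hq, hpq⟩ := Ideal.exists_le_maximal p hp
  obtain ⟨r, t, -, ht⟩ := exists_tb hS h q
  obtain ⟨y, hy, hg⟩ := (gens hS hsm q q q.span_eq q.zero_mem t ht).2 N (by omega)
  have hres := res_max hS q
  let α := (resG h).comp (ine h p).subtype
  have hm : ∀ g, ∀ a ∈ q, α g a ∈ q := fun g a ha => by
    have h1 : α g a - a ∈ q := hpq (g.2 a)
    simpa using add_mem h1 ha
  have hy' : q ≤ q * q ⊔ Ideal.span (range y) := by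
    intro a ha
    obtain ⟨u, hu, h1⟩ := hg a ha
    obtain ⟨v, w, hw, e⟩ := hq.exists_inv hu
    have e' : a = w * a + v * (u * a) := by rw [← mul_assoc, ← add_mul, add_comm, e, one_mul]
    rw [e']
    exact Submodule.add_mem_sup (Ideal.mul_mem_mul hw ha) (Ideal.mul_mem_left _ _ h1)
  obtain ⟨A, z, χ, h1, h2, h3, h4⟩ := key (ine h p) S α q q y hres hm hm hy hy'
  refine ⟨A, h1, fun a b => ?_⟩
  have h8 : ∀ s, α (a * b * (b * a)⁻¹ : A) s = s := by
    intro s
    have h5 := fun k => (Gr.fix_mod (α (a * b * (b * a)⁻¹ : A) : S →ₐ[ℂ] S) q ⊥ hres z h2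
      (by rwa [sup_bot_eq]) (hm _) (fun a ha => by rw [Ideal.mem_bot.1 ha, map_zero]; rfl)
      (fun i => by
        have h9 : χ i (a * b * (b * a)⁻¹) = 1 := by
          rw [map_mul, map_mul, mul_comm (χ i a), ← map_mul, ← map_mul, mul_inv_cancel, map_one]
        have h10 := h4 i (a * b * (b * a)⁻¹)
        rw [h9, one_smul] at h10
        exact Ideal.mem_bot.2 (sub_eq_zero.2 h10)) k).1 s
    rw [← sub_eq_zero, ← Ideal.mem_bot, ← Ideal.iInf_pow_eq_bot_of_isDomain q hq.ne_top,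
      Ideal.mem_iInf]
    intro k
    have h6 := h5 k
    rw [bot_sup_eq] at h6
    exact Ideal.pow_le_pow_right k.le_succ h6
  refine mul_inv_eq_one.1 (Subtype.ext (Subtype.ext (Subtype.ext (AlgEquiv.ext fun c => ?_))))
  obtain ⟨s, u, rfl⟩ := hS.fr c
  rw [map_div₀]
  exact congrArg₂ (· / ·) (congrArg Subtype.val (h8 s)) (congrArg Subtype.val (h8 u))

end Eg

open Eg in
/-- **EIG** -/
theorem eig : EIG := by
  classical
  intro N
  obtain ⟨J, key⟩ := comm N
  refine ⟨J, fun F _ _ S G p hS hsm hG h hp => ?_⟩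
  have := frac hS
  obtain ⟨A, hA, hc⟩ := key F S G p h hS hsm hG hp.ne_top
  let ι : ine h p →* (F ≃ₐ[ℂ] F) := G.subtype.comp (ine h p).subtype
  let α := (resG h).comp ((ine h p).subtype.comp A.subtype)
  let E : Set S := {v | v ∈ p.restrictScalars ℂ ∧ ∃ χ : A →* ℂ, ∀ g, Gr.rep α g v = χ g • v}
  have hE : Ideal.span E = p := by
    refine le_antisymm (Ideal.span_le.2 fun v hv => hv.1) fun a ha => ?_
    refine Submodule.span_le_restrictScalars ℂ S E
      (Gr.le_span_eig hc (Gr.rep α) (p.restrictScalars ℂ) (fun g u hu => ?_) ha)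
    have h1 : α g u - u ∈ p := g.1.2 u
    have h2 : α g u ∈ p := by simpa using add_mem h1 hu
    exact h2
  obtain ⟨r, t, ht1, ht⟩ := exists_tb hS h p
  obtain ⟨hr, hk⟩ := gens hS hsm p E hE ⟨p.zero_mem, 1, fun g => by simp⟩ t ht
  obtain ⟨x, hx, hg⟩ := hk (N - r) (by omega)
  refine ⟨A.map ι, N - r, r, fun j => x j, t, ⟨?_, ?_, ?_⟩, ?_, ⟨?_, hp, fun j => ⟨_, (hx j).1, rfl⟩,
    fun a ha => ?_, fun q hq => ?_, fun a => ?_⟩, fun j => ?_, ht1⟩
  · rintro _ ⟨σ, -, rfl⟩
    exact σ.1.2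
  · rintro _ ⟨σ, -, rfl⟩
    exact (inr_iff h p σ.1).2 σ.2
  · have := Fintype.ofFinite (ine h p ⧸ A)
    refine ⟨Finset.univ.image fun c : ine h p ⧸ A => ι c.out, Finset.card_image_le.trans ?_,
      fun σ hσ hi => ?_⟩
    · rwa [Finset.card_univ, ← Nat.card_eq_fintype_card]
    · let s : ine h p := ⟨⟨σ, hσ⟩, (inr_iff h p ⟨σ, hσ⟩).1 hi⟩
      refine ⟨_, Finset.mem_image_of_mem _ (Finset.mem_univ (s : ine h p ⧸ A)),
        _, QuotientGroup.eq.1 (QuotientGroup.out_eq' (s : ine h p ⧸ A)), ?_⟩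
      rw [map_mul, map_inv]
      rfl
  · rintro _ ⟨σ, hσ, rfl⟩ _ ⟨τ, hτ, rfl⟩
    rw [← map_mul, ← map_mul]
    exact congrArg (fun a : A => ι a) (hc ⟨σ, hσ⟩ ⟨τ, hτ⟩)
  · rwa [Nat.sub_add_cancel hr]
  · obtain ⟨u, hu, h1⟩ := hg a ha
    obtain ⟨c, e⟩ := Ideal.mem_span_range_iff_exists_fun.1 h1
    have hu0 : (u : F) ≠ 0 := fun k => hu ((Subtype.ext k : u = 0) ▸ p.zero_mem)
    refine ⟨fun j => c j / u, fun j => ⟨_, _, hu, rfl⟩, ?_⟩
    have e2 : ∑ j, (c j : F) * x j = u * a := by exact_mod_cast congrArg Subtype.val e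
    simp only [div_mul_eq_mul_div, ← Finset.sum_div, e2]
    field_simp
  · refine algebraicIndependent_iff.1 ht.1 q ?_
    rw [← MvPolynomial.comp_aeval, AlgHom.comp_apply]
    exact (rs_zero p _).2 hq
  · obtain ⟨Q, q1, q2⟩ := ht.isAlgebraic.isAlgebraic (rs p a)
    let e := ht.1.aevalEquiv
    refine ⟨Q.map (e.symm : _ →+* _), (Polynomial.map_ne_zero_iff e.symm.injective).2 q1, ?_⟩
    rw [← rs_zero, ← q2, Polynomial.aeval_def, Polynomial.eval₂_map]
    refine (Polynomial.hom_eval₂ Q _ (rs p).toRingHom a).trans ?_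
    congr 1
    refine RingHom.ext fun b => ?_
    obtain ⟨c, rfl⟩ := e.surjective b
    have e5 := ht.1.algebraMap_aevalEquiv c
    rw [← MvPolynomial.comp_aeval, AlgHom.comp_apply] at e5
    have e6 : (e.symm : _ →+* _) (e c) = c := e.symm_apply_apply c
    rw [RingHom.comp_apply, RingHom.comp_apply, e6]
    exact e5.symm
  · rintro _ ⟨σ, hσ, rfl⟩
    obtain ⟨χ, hχ⟩ := (hx j).2
    exact ⟨χ ⟨σ, hσ⟩, congrArg Subtype.val (hχ ⟨σ, hσ⟩)⟩

end Vale.Agent.P283R
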