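import Vale.Agent.P283R.Tp.St
import Vale.Agent.P287D.Cb.Lg

/-!
# P283R: prime divisors and centres along the quotient map
-/

set_option linter.unusedSectionVars false

open Set Polynomial
open Vale.Agent.P297Z

noncomputable section

namespace Vale.Agent.P283R.Fre

open Vale.Agent.P287D Vale.Agent.P287D.Cb MulSemiringAction

variable {K F : Type} [Field K] [Algebra ℂ K] [Field F] [Algebra ℂ F] [Algebra K F]
  {G : Subgroup (F ≃ₐ[ℂ] F)} {S : Subalgebra ℂ F} {A : Subalgebra ℂ K} {N : ℕ} {R : Pl F}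
  {Q : Pl K} {z w : F} {q : Ideal S}

theorem fix_prod [Fintype G] (z : F) : Fix G (∏ σ : G, σ.1 z) := fun τ hτ => by
  rw [map_prod]
  exact Fintype.prod_equiv (Equiv.mulLeft (⟨τ, hτ⟩ : G)) _ _ fun σ => rfl

theorem fix_sum [Fintype G] (z : F) : Fix G (∑ σ : G, σ.1 z) := fun τ hτ => by
  rw [map_sum]
  exact Fintype.sum_equiv (Equiv.mulLeft (⟨τ, hτ⟩ : G)) _ _ fun σ => rfl

theorem coeff_mem [Fintype G] (T : Subring F) (h : ∀ σ : G, σ.1 z ∈ T) (i : ℕ) :
    (charpoly G z).coeff i ∈ T := by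
  have : charpoly G z = (∏ σ : G, (X - C (⟨σ.1 z, h σ⟩ : T))).map T.subtype := by
    rw [Polynomial.map_prod, charpoly_eq]
    refine Finset.prod_congr rfl fun σ _ => ?_
    rw [Polynomial.map_sub, map_X, map_C]
    rfl
  rw [this, coeff_map]
  exact SetLike.coe_mem _

theorem coeff_fix [Fintype G] (z : F) (i : ℕ) : Fix G ((charpoly G z).coeff i) := fun σ hσ =>
  smul_coeff_charpoly z i (⟨σ, hσ⟩ : G)

theorem int_of {B : Type} [CommRing B] [Algebra B F] {p : F[X]} (hp : p.Monic)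
    (h : ∀ i, p.coeff i ∈ range (algebraMap B F)) (hz : p.eval z = 0) : IsIntegral B z := by
  obtain ⟨r, hr, -, hm⟩ := lifts_and_degree_eq_and_monic ((lifts_iff_coeff_lifts p).2 h) hp
  exact ⟨r, hm, by rw [← eval_map, hr, hz]⟩

theorem mx_lies (l : Lies (algebraMap K F) R Q) (g : K) : Mx R (algebraMap K F g) ↔ Mx Q g := by
  have a : ∀ {L : Type} [Field L] [Algebra ℂ L] (P : Pl L) (x : L),
      Mx P x ↔ x = 0 ∨ x⁻¹ ∉ P.ring := fun P x => by
    refine ⟨fun h => or_iff_not_imp_left.2 fun x0 k => not_mx_one (P := P) ?_, fun h => ?_⟩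
    · simpa [x0] using h.mul k
    · rcases h with rfl | h
      · exact mx_zero
      · exact not_not.1 fun k => h (inv_mem_of k)
  rw [a, a, ← map_inv₀, ← l, map_eq_zero]

theorem not_mx_mul (hz : ¬ Mx R z) (hw : ¬ Mx R w) : ¬ Mx R (z * w) := by
  rw [mx_iff, not_or] at *
  refine ⟨mul_ne_zero hz.1 hw.1, ?_⟩
  rw [Pl.ord_mul _ hz.1 hw.1]
  omega

theorem not_mx_prod {ι : Type} (T : Finset ι) {f : ι → F} (h : ∀ i ∈ T, ¬ Mx R (f i)) :
    ¬ Mx R (∏ i ∈ T, f i) :=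
  Finset.prod_induction f (fun x => ¬ Mx R x) (fun _ _ => not_mx_mul) not_mx_one h

theorem cen_mx (c : Cen S q R) (a : S) : a ∈ q ↔ Mx R a :=
  (c a).2.trans (rd_eq_zero (c a).1)

theorem sub_mem_ring (h : Gq N G S A) (l : Lies (algebraMap K F) R Q) (hA : ∀ a ∈ A, a ∈ Q.ring)
    (s : F) (hs : s ∈ S) : s ∈ R.ring := by
  have := h.fin
  have := Fintype.ofFinite G
  have i : IsIntegral R.ring s := int_of (monic_charpoly G s) (fun i => by
    obtain ⟨a, ha⟩ := (h.fix _).1 (coeff_fix s i)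
    have m : (charpoly G s).coeff i ∈ S :=
      coeff_mem S.toSubring (fun σ => h.stab σ σ.2 s hs) i
    refine ⟨⟨_, (l a).1 (hA a ((h.mem a).2 (ha ▸ m)))⟩, ha⟩) (eval_charpoly G s)
  obtain ⟨y, rfl⟩ := IsIntegrallyClosed.isIntegral_iff.1 i
  exact y.2

/-- a function all conjugates of which are regular at `R` -/
theorem clear (h : Gq N G S A) (l : Lies (algebraMap K F) R Q) (hA : ∀ a ∈ A, a ∈ Q.ring)
    (hp : Prm A Q) (hz : ∀ σ : G, σ.1 z ∈ R.ring) :
    ∃ u ∈ S, ¬ Mx R u ∧ u * z ∈ S := by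
  have := h.fin
  have := Fintype.ofFinite G
  have := h.nor
  have : IsFractionRing S F := IsFractionRing.of_field S F h.aff.fr
  have e : ∀ i, ∃ u ∈ S, ¬ Mx R u ∧ (charpoly G z).coeff i * u ∈ S := fun i => by
    obtain ⟨g, hg⟩ := (h.fix _).1 (coeff_fix z i)
    have m : (charpoly G z).coeff i ∈ R.ring := coeff_mem R.ring.toSubring hz i
    obtain ⟨a, ha, b, hb, b0, rfl⟩ := hp g ((l g).2 (hg ▸ m))
    have k : ¬ Mx Q b := fun k => b0 ((rd_eq_zero (hA b hb)).2 k)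
    have b1 : b ≠ 0 := fun e => k (e ▸ mx_zero)
    refine ⟨algebraMap K F b, (h.mem b).1 hb, fun c => k ((mx_lies l b).1 c), ?_⟩
    rw [← hg, ← map_mul, div_mul_cancel₀ _ b1]
    exact (h.mem a).1 ha
  choose u hu hn hc using e
  set p := charpoly G z with hp'
  have U : ∏ i ∈ Finset.range p.natDegree, u i ∈ S := prod_mem fun i _ => hu i
  refine ⟨_, U, not_mx_prod _ fun i _ => hn i, ?_⟩
  have i : IsIntegral S ((∏ i ∈ Finset.range p.natDegree, u i) * z) := by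
    refine int_of (p := p.scaleRoots (∏ i ∈ Finset.range p.natDegree, u i))
      ((monic_scaleRoots_iff _).2 (monic_charpoly G z)) (fun i => ?_) ?_
    · suffices (p.scaleRoots (∏ i ∈ Finset.range p.natDegree, u i)).coeff i ∈ S from
        ⟨⟨_, this⟩, rfl⟩
      rw [coeff_scaleRoots]
      rcases lt_trichotomy i p.natDegree with c | c | c
      · obtain ⟨k, hk⟩ : ∃ k, p.natDegree - i = k + 1 := ⟨p.natDegree - i - 1, by omega⟩
        rw [hk, pow_succ', ← mul_assoc]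
        refine mul_mem ?_ (pow_mem U _)
        rw [← Finset.mul_prod_erase _ _ (Finset.mem_range.2 c), ← mul_assoc]
        exact mul_mem (hc i) (prod_mem fun j _ => hu j)
      · rw [c, Nat.sub_self, pow_zero, mul_one, (monic_charpoly G z).coeff_natDegree]
        exact one_mem _
      · rw [coeff_eq_zero_of_natDegree_lt c, zero_mul]
        exact zero_mem _
    · rw [scaleRoots_eval_mul, eval_charpoly, mul_zero]
  obtain ⟨y, hy⟩ := IsIntegrallyClosed.isIntegral_iff.1 i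
  exact hy ▸ y.2

/-- the centre -/
def ctr (S : Subalgebra ℂ F) (R : Pl F) (h : ∀ s ∈ S, s ∈ R.ring) : Ideal S where
  carrier := {s | Mx R s}
  add_mem' := fun a b => a.add b
  zero_mem' := mx_zero
  smul_mem' := fun c _ a => a.mul (h _ c.2)

theorem cen_ctr (h : ∀ s ∈ S, s ∈ R.ring) : Cen S (ctr S R h) R := fun a =>
  ⟨h _ a.2, (rd_eq_zero (h _ a.2)).symm⟩

theorem pd_of (h : Gq N G S A) (l : Lies (algebraMap K F) R Q) (hA : ∀ a ∈ A, a ∈ Q.ring)
    (hp : Prm A Q) : PD S R := by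
  have := h.fin
  have m := sub_mem_ring h l hA
  refine ⟨_, cen_ctr m, fun a ha => ?_⟩
  obtain ⟨c, hc⟩ : ∃ c : ℂ, ∀ σ : G, R.rd (σ.1 a) ≠ algebraMap ℂ R.κ c := by
    obtain ⟨c, hc⟩ := ((finite_range fun σ : G => R.rd (σ.1 a)).preimage
      (algebraMap ℂ R.κ).injective.injOn).infinite_compl.nonempty
    exact ⟨c, fun σ e => hc ⟨σ, e⟩⟩
  have k : ∀ σ : G, ¬ Mx R (σ.1 a - algebraMap ℂ F c) := fun σ k => by
    have b : σ.1 a ∈ R.ring := by simpa using add_mem k.mem (R.con c)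
    have := (rd_eq_zero k.mem).2 k
    rw [rd_sub b (R.con c), rd_const, sub_eq_zero] at this
    exact hc σ this
  obtain ⟨u, hu, un, hs⟩ := clear h l hA hp (z := (a - algebraMap ℂ F c)⁻¹) fun σ => by
    rw [map_inv₀, map_sub, AlgEquiv.commutes]
    exact inv_mem_of (k σ)
  have k1 : ¬ Mx R (a - algebraMap ℂ F c) := k 1
  have n0 : a - algebraMap ℂ F c ≠ 0 := fun e => k1 (e ▸ mx_zero)
  have u0 : u ≠ 0 := fun e => un (e ▸ mx_zero)
  refine ⟨⟨u + algebraMap ℂ F c * (u * (a - algebraMap ℂ F c)⁻¹),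
    add_mem hu (mul_mem (S.algebraMap_mem c) hs)⟩, ⟨_, hs⟩, fun e => un ?_, ?_⟩
  · have e' : Mx R (u * (a - algebraMap ℂ F c)⁻¹) := e
    have := e'.mul (sub_mem ha (R.con c))
    rwa [mul_comm u, mul_inv_cancel_left₀ n0] at this
  · change a = (u + algebraMap ℂ F c * (u * (a - algebraMap ℂ F c)⁻¹)) /
      (u * (a - algebraMap ℂ F c)⁻¹)
    field_simp
    ring

/-- the conjugates of the centre -/
def cj (h : Stab G S) (R : Pl F) (m : ∀ s ∈ S, s ∈ R.ring) (σ : G) : Ideal S where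
  carrier := {s | Mx R (σ.1 s)}
  add_mem' := fun {a b} ha hb => by
    change Mx R (σ.1 (a + b))
    rw [map_add]
    exact Mx.add ha hb
  zero_mem' := by
    change Mx R (σ.1 0)
    rw [map_zero]
    exact mx_zero
  smul_mem' := fun c a ha => by
    change Mx R (σ.1 (c * a))
    rw [map_mul]
    exact Mx.mul ha (m _ (h σ σ.2 _ c.2))

theorem cj_prime (h : Stab G S) (m : ∀ s ∈ S, s ∈ R.ring) (σ : G) : (cj h R m σ).IsPrime := by
  refine ⟨(Ideal.ne_top_iff_one _).2 fun e => ?_, fun {a b} e => ?_⟩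
  · have e' : Mx R (σ.1 1) := e
    rw [map_one] at e'
    exact not_mx_one e'
  · have e' : Mx R (σ.1 (a * b)) := e
    rw [map_mul] at e'
    by_contra c
    rw [not_or] at c
    exact not_mx_mul c.1 c.2 e'

theorem prm_of (h : Gq N G S A) (d : PD S R) (l : Lies (algebraMap K F) R Q) : Prm A Q := by
  have := h.fin
  have := Fintype.ofFinite G
  obtain ⟨q, c, lo⟩ := d
  have m : ∀ s ∈ S, s ∈ R.ring := fun s hs => (c ⟨s, hs⟩).1
  intro g hg
  obtain ⟨s, t, tq, e⟩ := lo _ ((l g).1 hg)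
  rw [cen_mx c] at tq
  have t0 : (t : F) ≠ 0 := fun e => tq (e ▸ mx_zero)
  have fx : Fix G (algebraMap K F g) := (h.fix _).2 ⟨g, rfl⟩
  let I : Ideal S :=
    { carrier := {x | (x : F) * algebraMap K F g ∈ S}
      add_mem' := fun {a b} ha hb => by
        change ((a : F) + b) * _ ∈ S
        rw [add_mul]
        exact add_mem ha hb
      zero_mem' := by
        change (0 : F) * _ ∈ S
        rw [zero_mul]
        exact zero_mem _
      smul_mem' := fun c a ha => by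
        change ((c : F) * a) * _ ∈ S
        rw [mul_assoc]
        exact mul_mem c.2 ha }
  obtain ⟨x, hx, xn⟩ : ∃ x ∈ I, ∀ σ : G, ¬ Mx R (σ.1 x) := by
    by_contra n
    push Not at n
    obtain ⟨σ, -, hσ⟩ := (Ideal.subset_union_prime (s := Finset.univ) (f := cj h.stab R m) 1 1
      (fun σ _ _ _ => cj_prime h.stab m σ) (I := I)).1 fun x hx => by
        obtain ⟨σ, k⟩ := n x hx
        exact mem_biUnion (Finset.mem_coe.2 (Finset.mem_univ σ)) k
    have k : (⟨(σ⁻¹ : G).1 t, h.stab _ (σ⁻¹ : G).2 _ t.2⟩ : S) ∈ I := by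
      change (σ⁻¹ : G).1 t * algebraMap K F g ∈ S
      rw [← fx _ (σ⁻¹ : G).2, ← map_mul, e, mul_div_cancel₀ _ t0]
      exact h.stab _ (σ⁻¹ : G).2 _ s.2
    have k' : Mx R (σ.1 (σ.1.symm t)) := hσ k
    rw [AlgEquiv.apply_symm_apply] at k'
    exact tq k'
  obtain ⟨b, hb⟩ := (h.fix _).1 (fix_prod (G := G) (x : F))
  have bn : ¬ Mx Q b := fun k => not_mx_prod Finset.univ (fun σ _ => xn σ)
    (hb ▸ (mx_lies l b).2 k)
  have bS : algebraMap K F b ∈ S := hb ▸ prod_mem fun σ _ => h.stab _ σ.2 _ x.2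
  have b0 : b ≠ 0 := fun e => bn (e ▸ mx_zero)
  refine ⟨g * b, (h.mem _).2 ?_, b, (h.mem _).2 bS, fun k => bn ((rd_eq_zero ((l b).2
    (m _ bS))).1 k), by rw [mul_div_cancel_right₀ _ b0]⟩
  classical
  rw [map_mul, hb, ← Finset.mul_prod_erase _ _ (Finset.mem_univ (1 : G)), ← mul_assoc, mul_comm _
    ((1 : G).1 x)]
  exact mul_mem hx (prod_mem fun σ _ => h.stab _ σ.2 _ x.2)

/-- a uniformizer all conjugates of which vanish at `R` -/
theorem exists_unif (h : Gq N G S A) (c : Cen S q R) (lo : ∀ a ∈ R.ring, a ∈ Lo S q) :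
    ∃ z : F, z ≠ 0 ∧ R.ord z = 1 ∧ ∀ σ : G, Mx R (σ.1 z) := by
  have := h.fin
  have := Fintype.ofFinite G
  have m : ∀ s ∈ S, s ∈ R.ring := fun s hs => (c ⟨s, hs⟩).1
  have un : ∀ x ∈ S, ¬ Mx R x → x ≠ 0 ∧ R.ord x = 0 := fun x hx k => by
    rw [mx_iff, not_or] at k
    have := (Pl.ord_nonneg_iff _ k.1).2 (m x hx)
    exact ⟨k.1, by omega⟩
  obtain ⟨s, t, tq, e⟩ := lo _ (t_mem R)
  rw [cen_mx c] at tq
  have t0 := un _ t.2 tq
  have e' : (s : F) = R.t * t := by rw [e, div_mul_cancel₀ _ t0.1]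
  have s0 : (s : F) ≠ 0 := e' ▸ mul_ne_zero R.t_ne t0.1
  have s1 : R.ord s = 1 := by rw [e', Pl.ord_mul _ R.t_ne t0.1, R.ord_t, t0.2, add_zero]
  have k : ∀ σ : G, ∃ x ∈ S, ¬ Mx R x ∧ Mx R (σ.1 (s * x)) := fun σ => by
    by_cases n : ∃ x ∈ S, ¬ Mx R x ∧ Mx R (σ.1 x)
    · obtain ⟨x, hx, a, b⟩ := n
      exact ⟨x, hx, a, by rw [map_mul]; exact b.mul (m _ (h.stab _ σ.2 _ s.2))⟩
    · refine ⟨1, one_mem _, not_mx_one, ?_⟩
      rw [mul_one]
      have p : ∀ (j : ℕ), ∀ x ∈ S, Mx R x → Mx R (((σ⁻¹ : G) ^ j : G).1 x) := fun j => by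
        induction j with
        | zero => exact fun x _ a => a
        | succ j ih =>
          intro x hx a
          rw [pow_succ]
          refine ih _ (h.stab _ (σ⁻¹ : G).2 _ hx) (not_not.1 fun b => n ⟨_, h.stab _ (σ⁻¹ : G).2 _ hx,
            b, ?_⟩)
          change Mx R (σ.1 (σ.1.symm x))
          rwa [AlgEquiv.apply_symm_apply]
      obtain ⟨j, hj⟩ : σ ∈ Submonoid.powers σ⁻¹ := mem_powers_iff_mem_zpowers.2 <| by simp
      have := p j _ s.2 (mx_iff.2 (.inr (by rw [s1]; exact one_pos)))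
      rwa [show σ⁻¹ ^ j = σ from hj] at this
  choose x hx xn xm using k
  have X := un _ (prod_mem fun σ (_ : σ ∈ Finset.univ) => hx σ) (not_mx_prod _ fun σ _ => xn σ)
  refine ⟨s * ∏ σ, x σ, mul_ne_zero s0 X.1, by rw [Pl.ord_mul _ s0 X.1, s1, X.2, add_zero],
    fun σ => ?_⟩
  classical
  rw [← Finset.mul_prod_erase _ _ (Finset.mem_univ σ), ← mul_assoc, map_mul, mul_comm]
  exact (xm σ).mul (m _ (h.stab _ σ.2 _ (prod_mem fun τ _ => hx τ)))

theorem ord_one (h : Gq N G S A) (d : PD S R) (l : Lies (algebraMap K F) R Q) :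
    R.ord (algebraMap K F Q.t) = 1 := by
  classical
  have := h.fin
  have := Fintype.ofFinite G
  obtain ⟨q, c, lo⟩ := d
  have m : ∀ s ∈ S, s ∈ R.ring := fun s hs => (c ⟨s, hs⟩).1
  have e : ∀ g : G, ∃ a ∈ S, g ≠ 1 → ¬ Mx R (a - g.1 a) := fun g => by
    by_contra n
    push Not at n
    refine (n 0 (zero_mem _)).1 (Subtype.ext (h.free q R c lo _ g.2 fun a => ?_))
    refine ⟨⟨g.1 a - a, sub_mem (h.stab _ g.2 _ a.2) a.2⟩, (cen_mx c _).2 ?_, rfl⟩
    simpa using mx_zero.sub (n _ a.2).2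
  choose a ha an using e
  have p : ∀ T : Finset G, ∀ z, (∀ σ : G, Mx R (σ.1 z)) →
      (∑ σ : G, (∏ g ∈ T, (σ.1 (a g) - g.1 (a g))) * σ.1 z) / algebraMap K F Q.t ∈ R.ring := by
    intro T
    induction T using Finset.induction_on with
    | empty =>
      intro z hz
      simp only [Finset.prod_empty, one_mul]
      obtain ⟨g, hg⟩ := (h.fix _).1 (fix_sum (G := G) z)
      have k : Mx R (algebraMap K F g) := hg ▸ Finset.sum_induction _ (Mx R) (fun _ _ => Mx.add)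
        mx_zero fun σ _ => hz σ
      rw [← hg, ← map_div₀]
      exact (l _).1 ((mx_lies l g).1 k)
    | insert g T n ih =>
      intro z hz
      have k := sub_mem (ih (a g * z) fun σ => by
        rw [map_mul]; exact (hz σ).mul (m _ (h.stab _ σ.2 _ (ha g))))
        (mul_mem (m _ (h.stab _ g.2 _ (ha g))) (ih z hz))
      convert k using 1
      rw [← mul_div_assoc, ← sub_div, Finset.mul_sum, ← Finset.sum_sub_distrib]
      congr 1
      refine Finset.sum_congr rfl fun σ _ => ?_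
      rw [Finset.prod_insert n, map_mul]
      ring
  obtain ⟨z, z0, z1, hz⟩ := exists_unif h c lo
  have k := p (Finset.univ.erase 1) z hz
  rw [Finset.sum_eq_single (1 : G) (fun σ _ n => by
    rw [Finset.prod_eq_zero (Finset.mem_erase.2 ⟨n, Finset.mem_univ σ⟩) (sub_self _), zero_mul])
    (by simp)] at k
  have u : ¬ Mx R (∏ g ∈ Finset.univ.erase (1 : G), ((1 : G).1 (a g) - g.1 (a g))) :=
    not_mx_prod _ fun g hg => an g (Finset.mem_erase.1 hg).1
  have t0 : algebraMap K F Q.t ≠ 0 := (_root_.map_ne_zero _).2 Q.t_ne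
  have t1 := (mx_iff.1 ((mx_lies l Q.t).2 (by simpa using mx_t (one_mem Q.ring)))).resolve_left t0
  rw [mx_iff, not_or] at u
  have k' := (Pl.ord_nonneg_iff _ (div_ne_zero (mul_ne_zero u.1 z0) t0)).2 k
  rw [Pl.ord_div _ (mul_ne_zero u.1 z0) t0, Pl.ord_mul _ u.1 z0, z1] at k'
  omega

theorem go_up (h : Gq N G S A) (χ : A →ₐ[ℂ] ℂ) (p : Ideal S)
    (hp : ∀ (a : A) (s : S), algebraMap K F a = s → s ∈ p → χ a = 0) :
    ∃ q : Ideal S, q.IsPrime ∧ p ≤ q ∧
      ∀ (a : A) (s : S), algebraMap K F a = s → (s ∈ q ↔ χ a = 0) := by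
  have := h.fin
  have := Fintype.ofFinite G
  let ι : A →+* S := (algebraMap K F).restrict A S fun a ha => (h.mem a).1 ha
  let _ : Algebra A S := ι.toAlgebra
  have : IsScalarTower A S F := .of_algebraMap_eq fun _ => rfl
  have : Algebra.IsIntegral A S := ⟨fun s => by
    refine (isIntegral_algHom_iff (IsScalarTower.toAlgHom A S F) Subtype.val_injective).1
      (int_of (monic_charpoly G (s : F)) (fun i => ?_) (eval_charpoly G _))
    obtain ⟨a, ha⟩ := (h.fix _).1 (coeff_fix (s : F) i)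
    have m : (charpoly G (s : F)).coeff i ∈ S :=
      coeff_mem S.toSubring (fun σ => h.stab σ σ.2 _ s.2) i
    exact ⟨⟨a, (h.mem a).2 (ha ▸ m)⟩, ha⟩⟩
  have : (RingHom.ker χ).IsPrime := RingHom.ker_isPrime _
  obtain ⟨q, le, pr, e⟩ := Ideal.exists_ideal_over_prime_of_isIntegral (RingHom.ker χ) p
    fun a ha => hp a (ι a) rfl ha
  refine ⟨q, pr, le, fun a s k => ?_⟩
  obtain rfl : ι a = s := Subtype.ext k
  rw [← RingHom.mem_ker, ← e]
  rfl

end Vale.Agent.P283R.Fre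

namespace Vale.Agent.P283R

theorem fre : FRE := fun _ _ _ _ _ _ _ _ _ _ _ _ h =>
  ⟨fun _ _ d l => ⟨Fre.prm_of h d l, Fre.ord_one h d l⟩,
    fun _ _ l hA => ⟨Fre.sub_mem_ring h l hA, Fre.pd_of h l hA⟩,
    fun χ p _ hp => Fre.go_up h χ p hp⟩

end Vale.Agent.P283R
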