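import Vale.Agent.P283R.Tp.St
import Vale.Agent.P287D.Cb.Fr

/-!
# P283R: the frame of a point (row DER)
-/

open Set
open Vale.Agent.P285N.Brep (jac Fr)

noncomputable section

namespace Vale.Agent.P283R

open Vale.Agent.P287D

namespace Dr13

variable {F : Type} [Field F] [Algebra ℂ F] {S : Subalgebra ℂ F} {p : Ideal S}

theorem ne_of (_ : p.IsPrime) {t : S} (ht : t ∉ p) : (t : F) ≠ 0 := fun h =>
  ht ((Subtype.ext h : t = 0) ▸ p.zero_mem)

theorem mul_not (hp : p.IsPrime) {t u : S} (ht : t ∉ p) (hu : u ∉ p) : t * u ∉ p := fun h =>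
  (hp.mem_or_mem h).elim ht hu

theorem one_not (hp : p.IsPrime) : (1 : S) ∉ p := fun h => hp.ne_top ((Ideal.eq_top_iff_one _).2 h)

/-- the local ring as a subalgebra -/
def loc (hp : p.IsPrime) : Subalgebra ℂ F where
  carrier := Lo S p
  mul_mem' := by
    rintro _ _ ⟨s, t, ht, rfl⟩ ⟨s', t', ht', rfl⟩
    exact ⟨s * s', t * t', mul_not hp ht ht', by push_cast; rw [div_mul_div_comm]⟩
  add_mem' := by
    rintro _ _ ⟨s, t, ht, rfl⟩ ⟨s', t', ht', rfl⟩
    exact ⟨s * t' + t * s', t * t', mul_not hp ht ht', by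
      push_cast; rw [div_add_div _ _ (ne_of hp ht) (ne_of hp ht')]⟩
  algebraMap_mem' := fun c => ⟨algebraMap ℂ S c, 1, one_not hp, by simp⟩

theorem coe_mem (hp : p.IsPrime) (s : S) : (s : F) ∈ loc hp := ⟨s, 1, one_not hp, by simp⟩

theorem inv_mem (hp : p.IsPrime) {t : S} (ht : t ∉ p) : (t : F)⁻¹ ∈ loc hp :=
  ⟨1, t, ht, by simp⟩

theorem lo_le {q : Ideal S} (h : q ≤ p) : Lo S p ⊆ Lo S q := by
  rintro _ ⟨s, t, ht, rfl⟩
  exact ⟨s, t, fun k => ht (h k), rfl⟩

/-- the values of all derivations -/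
def gr (a : F) : Derivation ℂ F F → F := fun δ => δ a

theorem gr_add (a b : F) : gr (a + b) = gr a + gr b := funext fun δ => map_add δ a b

theorem gr_mul (a b : F) : gr (a * b) = a • gr b + b • gr a := funext fun δ => δ.leibniz a b

theorem gr_c (c : ℂ) : gr (algebraMap ℂ F c) = 0 := funext fun δ => δ.map_algebraMap c

theorem gr_sum {ι : Type} (s : Finset ι) (a : ι → F) : gr (∑ i ∈ s, a i) = ∑ i ∈ s, gr (a i) :=
  funext fun δ => by simp [gr, Finset.sum_apply]

theorem gr_div (s : F) {t : F} (ht : t ≠ 0) :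
    gr (s / t) = t⁻¹ • gr s + (-(s / t * t⁻¹)) • gr t := by
  have h := gr_mul (s / t) t
  rw [div_mul_cancel₀ _ ht] at h
  funext δ
  have := congrFun h δ
  simp only [Pi.add_apply, Pi.smul_apply, smul_eq_mul] at this ⊢
  rw [this]
  field_simp
  ring

theorem gr_pow (a : F) (n : ℕ) : gr (a ^ (n + 1)) = (((n : F) + 1) * a ^ n) • gr a :=
  funext fun δ => by simp [gr, δ.leibniz_pow, mul_assoc]

variable {O : Subalgebra ℂ F} {M : Submodule O (Derivation ℂ F F → F)}

theorem sm {a : F} (ha : a ∈ O) {v : Derivation ℂ F F → F} (hv : v ∈ M) : a • v ∈ M :=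
  M.smul_mem ⟨a, ha⟩ hv

theorem gr_adj {T : Set F} (hT : T ⊆ O) (h : ∀ a ∈ T, gr a ∈ M) {a : F}
    (ha : a ∈ Algebra.adjoin ℂ T) : gr a ∈ M := by
  have le : Algebra.adjoin ℂ T ≤ O := Algebra.adjoin_le hT
  induction ha using Algebra.adjoin_induction with
  | mem a ha => exact h a ha
  | algebraMap c => rw [gr_c]; exact M.zero_mem
  | add a b _ _ ha hb => rw [gr_add]; exact M.add_mem ha hb
  | mul a b h1 h2 ha hb => rw [gr_mul]; exact M.add_mem (sm (le h1) hb) (sm (le h2) ha)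

theorem gr_lo (hp : p.IsPrime) {M : Submodule (loc hp) (Derivation ℂ F F → F)}
    (h : ∀ s : S, gr (s : F) ∈ M) {a : F} (ha : a ∈ Lo S p) : gr a ∈ M := by
  obtain ⟨s, t, ht, rfl⟩ := ha
  rw [gr_div _ (ne_of hp ht)]
  exact M.add_mem (sm (inv_mem hp ht) (h s))
    (sm (neg_mem (mul_mem (⟨s, t, ht, rfl⟩ : _ ∈ loc hp) (inv_mem hp ht))) (h t))

theorem gr_ev {r : ℕ} (hS : S ≤ O) {t : Fin r → S} (ht : ∀ i, gr (t i : F) ∈ M) (a : S)
    (q : Polynomial (MvPolynomial (Fin r) ℂ)) :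
    gr ((q.eval₂ (MvPolynomial.aeval t : MvPolynomial (Fin r) ℂ →ₐ[ℂ] S).toRingHom a : S) : F) -
      (((Polynomial.derivative q).eval₂
        (MvPolynomial.aeval t : MvPolynomial (Fin r) ℂ →ₐ[ℂ] S).toRingHom a : S) : F) •
        gr (a : F) ∈ M := by
  have hc : ∀ c : MvPolynomial (Fin r) ℂ, gr ((MvPolynomial.aeval t c : S) : F) ∈ M := fun c => by
    induction c using MvPolynomial.induction_on with
    | C c =>
      rw [MvPolynomial.aeval_C]
      exact (gr_c (F := F) c).symm ▸ M.zero_mem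
    | add a b ha hb => rw [map_add, Subalgebra.coe_add, gr_add]; exact M.add_mem ha hb
    | mul_X a i ha =>
      rw [map_mul, MvPolynomial.aeval_X, Subalgebra.coe_mul, gr_mul]
      exact M.add_mem (sm (hS (Subtype.mem _)) (ht i)) (sm (hS (Subtype.mem _)) ha)
  induction q using Polynomial.induction_on' with
  | add p q hp hq =>
    simp only [Polynomial.derivative_add, Polynomial.eval₂_add, Subalgebra.coe_add, gr_add,
      add_smul]
    convert M.add_mem hp hq using 1
    abel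
  | monomial n c =>
    rw [Polynomial.derivative_monomial, Polynomial.eval₂_monomial, Polynomial.eval₂_monomial]
    cases n with
    | zero => simpa using hc c
    | succ n =>
      have e := sm (hS (Subtype.mem (a ^ (n + 1)))) (hc c)
      convert e using 1
      simp only [Subalgebra.coe_mul, Subalgebra.coe_pow, gr_mul, gr_pow, map_mul, map_natCast,
        AlgHom.toRingHom_eq_coe, RingHom.coe_coe, smul_smul, Nat.add_sub_cancel]
      push_cast
      rw [add_sub_right_comm, ← sub_smul]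
      simp [mul_assoc]

variable {k r : ℕ} {x : Fin k → F} {t : Fin r → S}

/-- a separable equation -/
theorem exists_sep (h : Par S p x t) (a : S) : ∃ q : Polynomial (MvPolynomial (Fin r) ℂ),
    q.eval₂ (MvPolynomial.aeval t : MvPolynomial (Fin r) ℂ →ₐ[ℂ] S).toRingHom a ∈ p ∧
    (Polynomial.derivative q).eval₂
      (MvPolynomial.aeval t : MvPolynomial (Fin r) ℂ →ₐ[ℂ] S).toRingHom a ∉ p := by
  obtain ⟨q, q0, hq⟩ := h.alg a
  induction hn : q.natDegree using Nat.strong_induction_on generalizing q with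
  | _ n ih =>
    by_contra hc
    have h1 := not_not.1 fun k => hc ⟨q, hq, k⟩
    by_cases d0 : q.natDegree = 0
    · rw [Polynomial.eq_C_of_natDegree_eq_zero d0, Polynomial.eval₂_C] at hq
      exact q0 (by rw [Polynomial.eq_C_of_natDegree_eq_zero d0, h.ind _ hq, map_zero])
    · exact hc (ih _ (hn ▸ Polynomial.natDegree_derivative_lt d0) _
        (fun k => d0 (Polynomial.derivative_eq_zero.1 k)) h1 rfl)

/-- the differentials of the parameters generate -/
theorem gen (h : Par S p x t) {a : F} (ha : a ∈ Lo S p) : ∃ c : Fin (k + r) → F,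
    (∀ j, c j ∈ Lo S p) ∧ ∀ δ : Derivation ℂ F F,
      δ a = ∑ j, c j * δ (Fin.append x (fun i => (t i : F)) j) := by
  have hp := h.pri
  obtain ⟨T, hT⟩ := h.aff.fg
  have hS : S ≤ loc hp := fun s hs => coe_mem hp ⟨s, hs⟩
  choose s hs es using h.mem
  let y := Fin.append x fun i => (t i : F)
  let M : Submodule (loc hp) (Derivation ℂ F F → F) := Submodule.span _ (gr '' (T : Set F))
  let N : Submodule (loc hp) (Derivation ℂ F F → F) := Submodule.span _ (range fun j => gr (y j))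
  let I : Ideal (loc hp) := Ideal.span (range fun j => (⟨s j, coe_mem hp _⟩ : loc hp))
  have hM : ∀ s : S, gr (s : F) ∈ M := fun s =>
    gr_adj (M := M) (T := T) (fun a ha => hS (hT.le (Algebra.subset_adjoin ha)))
      (fun a ha => Submodule.subset_span (mem_image_of_mem gr ha)) (hT.ge s.2)
  have nx : ∀ j, gr (x j) ∈ N := fun j =>
    Submodule.subset_span ⟨Fin.castAdd r j, by simp only [y, Fin.append_left]⟩
  have nt : ∀ i, gr (t i : F) ∈ N := fun i =>
    Submodule.subset_span ⟨Fin.natAdd k i, by simp only [y, Fin.append_right]⟩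
  have hb : ∀ b ∈ p, gr (b : F) ∈ N ⊔ I • M := fun b hb => by
    obtain ⟨c, hc, e⟩ := h.gen b hb
    rw [e, gr_sum]
    refine Submodule.sum_mem _ fun j _ => ?_
    rw [gr_mul]
    refine Submodule.add_mem_sup (sm (hc j) (nx j)) ?_
    rw [← es j]
    exact Submodule.smul_mem_smul (I := I) (r := ⟨s j, coe_mem hp _⟩)
      (Ideal.subset_span ⟨j, rfl⟩) (gr_lo hp hM (hc j))
  have le : M ≤ N ⊔ I • M := by
    refine Submodule.span_le.2 ?_
    rintro _ ⟨a, ha, rfl⟩
    obtain ⟨q, h1, h2⟩ := exists_sep h ⟨a, hT.le (Algebra.subset_adjoin ha)⟩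
    have h3 := Submodule.sub_mem _ (hb _ h1) (Submodule.mem_sup_left
      (gr_ev hS nt ⟨a, hT.le (Algebra.subset_adjoin ha)⟩ q))
    rw [sub_sub_cancel] at h3
    have h4 := sm (inv_mem hp h2) h3
    rwa [smul_smul, inv_mul_cancel₀ (ne_of hp h2), one_smul] at h4
  obtain ⟨u, hu, hN⟩ := Submodule.exists_sub_one_mem_and_smul_le_of_fg_of_le_sup
    (Submodule.fg_span ((Finset.finite_toSet T).image _)) le_rfl le
  have hI : ∀ v ∈ I, ∃ b ∈ p, ∃ w : S, w ∉ p ∧ (v : F) = b / w := fun v hv => by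
    induction hv using Submodule.span_induction with
    | mem v hv =>
      obtain ⟨j, rfl⟩ := hv
      exact ⟨s j, hs j, 1, one_not hp, by simp⟩
    | zero => exact ⟨0, p.zero_mem, 1, one_not hp, by simp⟩
    | add v v' _ _ h1 h2 =>
      obtain ⟨b, hb, w, hw, e⟩ := h1
      obtain ⟨b', hb', w', hw', e'⟩ := h2
      refine ⟨b * w' + w * b', p.add_mem (p.mul_mem_right _ hb) (p.mul_mem_left _ hb'), w * w',
        mul_not hp hw hw', ?_⟩
      push_cast
      rw [e, e', div_add_div _ _ (ne_of hp hw) (ne_of hp hw')]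
    | smul c v _ h1 =>
      obtain ⟨b, hb, w, hw, e⟩ := h1
      obtain ⟨_, b', w', hw', rfl⟩ := c
      refine ⟨b' * b, p.mul_mem_left _ hb, w' * w, mul_not hp hw' hw, ?_⟩
      rw [smul_eq_mul]
      push_cast
      rw [e, div_mul_div_comm]
  obtain ⟨b, hb, w, hw, e⟩ := hI _ hu
  have hbw : b + w ∉ p := fun k => hw (by simpa using p.sub_mem k hb)
  have eu : (w : F) / (b + w : S) * u = 1 := by
    have : (u : F) = b / w + 1 := by rw [← e]; simp
    have h1 := ne_of hp hw
    have h2 := ne_of hp hbw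
    rw [this]
    push_cast at h2 ⊢
    field_simp
  have h5 : gr a ∈ N := by
    have h6 : (u : F) • gr a ∈ N := hN (Submodule.smul_mem_pointwise_smul _ u _ (gr_lo hp hM ha))
    have h7 := sm (⟨w, b + w, hbw, rfl⟩ : _ ∈ loc hp) h6
    rwa [smul_smul, eu, one_smul] at h7
  obtain ⟨c, hc⟩ := (Submodule.mem_span_range_iff_exists_fun _).1 h5
  refine ⟨fun j => c j, fun j => (c j).2, fun δ => ?_⟩
  have := congrFun hc δ
  rw [Finset.sum_apply] at this
  exact this.symm

variable {N : ℕ}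

/-- a derivation which maps `S` into the local ring at `p` preserves the local rings at the primes
`q ≤ p` -/
theorem der_lo {q : Ideal S} (hq : q.IsPrime) (h : q ≤ p) {δ : Derivation ℂ F F}
    (hδ : ∀ s : S, δ s ∈ Lo S p) {a : F} (ha : a ∈ Lo S q) : δ a ∈ Lo S q := by
  obtain ⟨s, t, ht, rfl⟩ := ha
  have e := congrFun (gr_div (s : F) (ne_of hq ht)) δ
  change δ _ = _ * δ _ + _ * δ _ at e
  rw [e]
  exact (loc hq).add_mem ((loc hq).mul_mem (inv_mem hq ht) (lo_le h (hδ s)))
    ((loc hq).mul_mem (neg_mem (mul_mem (⟨s, t, ht, rfl⟩ : _ ∈ loc hq) (inv_mem hq ht)))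
      (lo_le h (hδ t)))

theorem rd_zero {R : Pl F} {a : F} (ha : a ∈ R.ring) :
    R.rd a = 0 ↔ (⟨a, ha⟩ : R.ring) ∈ IsLocalRing.maximalIdeal R.ring := by
  have e : R.rd a = IsLocalRing.residue R.ring ⟨a, ha⟩ := dif_pos ha
  rw [e]
  exact IsLocalRing.residue_eq_zero_iff _

theorem cen_prime {q : Ideal S} {R : Pl F} (h : Cen S q R) : q.IsPrime := by
  have e : q = Ideal.comap ((algebraMap S F).codRestrict R.ring fun a => (h a).1)
      (IsLocalRing.maximalIdeal R.ring) := by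
    ext a
    rw [(h a).2, Ideal.mem_comap]
    exact rd_zero (h a).1
  rw [e]
  infer_instance

theorem cen_lo {q : Ideal S} {R : Pl F} (h : Cen S q R) {a : F} (ha : a ∈ Lo S q) :
    a ∈ R.ring := by
  obtain ⟨s, t, ht, rfl⟩ := ha
  have u : IsUnit (⟨t, (h t).1⟩ : R.ring) := by
    by_contra k
    exact ht ((h t).2.2 ((rd_zero (h t).1).2 k))
  obtain ⟨v, hv⟩ := u.exists_right_inv
  have e : (t : F)⁻¹ = v := (eq_inv_of_mul_eq_one_right (congrArg Subtype.val hv)).symm
  rw [div_eq_mul_inv, e]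
  exact mul_mem (h s).1 v.2

theorem der_kap (hp : p.IsPrime) {y : Fin N → F} {D : Fin N → Derivation ℂ F F} (hF : Fr y D)
    (hy : ∀ j, y j ∈ Lo S p) (hD : ∀ j, ∀ a ∈ Lo S p, D j a ∈ Lo S p) (R : Pl F)
    (hR : PDat S p R) : kap y R = 0 := by
  obtain ⟨q, le, c, lo⟩ := hR
  have a : Ad R y D := ⟨hF, fun j => cen_lo c (lo_le le (hy j)), fun j f hf =>
    cen_lo c (der_lo (cen_prime c) le (fun s => hD j _ (coe_mem hp s)) (lo f hf))⟩
  rw [Cb.kap_eq a, Cb.jac_self hF]
  simp

end Dr13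

open Dr13

/-- **DER** -/
theorem der : DER := by
  intro k r F _ _ S p x t h
  have hp := h.pri
  obtain ⟨z, hz, -⟩ := h.aff.ff
  obtain ⟨E, hE⟩ := Cb.fr_of h.aff.ff hz
  have all : ∀ a : F, ∃ c : Fin (k + r) → F, ∀ δ : Derivation ℂ F F,
      δ a = ∑ j, δ (Fin.append x (fun i => (t i : F)) j) * c j := fun a => by
    obtain ⟨s, u, rfl⟩ := h.aff.fr a
    by_cases u0 : (u : F) = 0
    · exact ⟨0, fun δ => by simp [u0]⟩
    obtain ⟨c, -, hc⟩ := gen h (coe_mem hp s)
    obtain ⟨c', -, hc'⟩ := gen h (coe_mem hp u)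
    refine ⟨fun j => (u : F)⁻¹ * c j + -(s / u * (u : F)⁻¹) * c' j, fun δ => ?_⟩
    have e := congrFun (gr_div (s : F) u0) δ
    change δ _ = _ * δ _ + _ * δ _ at e
    rw [e, hc, hc', Finset.mul_sum, Finset.mul_sum, ← Finset.sum_add_distrib]
    exact Finset.sum_congr rfl fun j _ => by ring
  choose C hC using fun l => all (z l)
  have j0 : jac E (Fin.append x fun i => (t i : F)) ≠ 0 := fun j0 => by
    have e : jac E z = jac E (Fin.append x fun i => (t i : F)) *
        (Matrix.of fun j l => C l j).det := by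
      unfold jac
      rw [← Matrix.det_mul]
      congr 1
      ext i l
      exact hC l (E i)
    rw [Cb.jac_self hE, j0, zero_mul] at e
    exact one_ne_zero e
  obtain ⟨D, hD⟩ := Cb.fr_of h.aff.ff ((Cb.jac_ne_iff hE _).1 j0)
  have pre : ∀ j, ∀ a ∈ Lo S p, D j a ∈ Lo S p := fun j a ha => by
    obtain ⟨c, hc, e⟩ := gen h ha
    rw [e]
    simp only [hD.dual, mul_ite, mul_one, mul_zero, Finset.sum_ite_eq, Finset.mem_univ, if_true]
    exact hc j
  refine ⟨D, hD, pre, der_kap hp hD (fun j => ?_) pre⟩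
  refine Fin.addCases (fun j => ?_) (fun j => ?_) j
  · obtain ⟨s, -, e⟩ := h.mem j
    rw [Fin.append_left, ← e]
    exact coe_mem hp s
  · rw [Fin.append_right]
    exact coe_mem hp _

end Vale.Agent.P283R
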