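import Vale.Agent.P283R.Gf.Tr
import Vale.Agent.P283R.Gf.Fix
import Vale.Agent.P283R.Tp.Der

/-!
# P283R: from closed points to all points
-/

namespace Vale.Agent.P283R

open Vale.Agent.P287D

theorem gfr : GFR := fun h k Q ε q0 e0 => by
  obtain ⟨n₀, n0, H⟩ := h k Q ε q0 e0
  refine ⟨n₀, n0, fun n a b c r F _ _ S p x t A f hp hA hs hI hx ht => ?_⟩
  obtain ⟨D, hD, -⟩ := der k r F S p x t hp
  exact Gf.tr (H n a b c) hp ((Cb.jac_ne_iff hD _).1 (by rw [Cb.jac_self hD]; exact one_ne_zero))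
    (fun σ hσ _ ha => Gf.fixL der hp σ (hs σ hσ) (hI σ hσ) (fun i => ht i σ hσ) ha) hA hs hI hx

end Vale.Agent.P283R
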