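import Vale.Agent.P287D.St
import Vale.Agent.P283R.Qa

/-!
# P283R: from the theorem on `ℂ(z)` to quotients of smooth varieties and complete intersections
-/

open Set
open Vale.Agent.P285N.Brep (jac Fr)

noncomputable section

namespace Vale.Agent.P283R

open Vale.Agent.P287D

section defs

variable {F F' : Type} [Field F] [Algebra ℂ F] [Field F'] [Algebra ℂ F'] {N : ℕ}

/-- the centre of `P` on `Spec S` is `p` -/
def Cen (S : Subalgebra ℂ F) (p : Ideal S) (P : Pl F) : Prop :=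
  ∀ a : S, (a : F) ∈ P.ring ∧ (a ∈ p ↔ P.rd a = 0)

/-- the local ring of `Spec S` at `p` -/
def Lo (S : Subalgebra ℂ F) (p : Ideal S) : Set F := {a | ∃ s t : S, t ∉ p ∧ a = s / t}

/-- the centre of `P` on `Spec S` passes through one of the points `W` -/
def Thp (S : Subalgebra ℂ F) (W : Set (Ideal S)) (P : Pl F) : Prop :=
  (∀ s ∈ S, s ∈ P.ring) ∧ ∃ q ∈ W, ∀ a : S, P.rd a = 0 → a ∈ q

/-- `R` is a prime divisor of `Spec S` -/
def PD (S : Subalgebra ℂ F) (R : Pl F) : Prop :=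
  ∃ q : Ideal S, Cen S q R ∧ ∀ a ∈ R.ring, a ∈ Lo S q

/-- `R` is a prime divisor of `Spec S` through `p` -/
def PDat (S : Subalgebra ℂ F) (p : Ideal S) (R : Pl F) : Prop :=
  ∃ q : Ideal S, q ≤ p ∧ Cen S q R ∧ ∀ a ∈ R.ring, a ∈ Lo S q

/-- `Spec S` is an affine model of `F` -/
structure Aff (N : ℕ) (S : Subalgebra ℂ F) : Prop where
  ff : FF F N
  fg : S.FG
  fr : ∀ a : F, ∃ s t : S, a = s / t

/-- `x` generate the maximal ideal of the local ring at `p`, the residues of `t` are a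
transcendence basis of the residue field -/
structure Par {k r : ℕ} (S : Subalgebra ℂ F) (p : Ideal S) (x : Fin k → F) (t : Fin r → S) :
    Prop where
  aff : Aff (k + r) S
  pri : p.IsPrime
  mem : ∀ j, ∃ s ∈ p, (s : F) = x j
  gen : ∀ a ∈ p, ∃ c : Fin k → F, (∀ j, c j ∈ Lo S p) ∧ (a : F) = ∑ j, c j * x j
  ind : ∀ q : MvPolynomial (Fin r) ℂ, MvPolynomial.aeval t q ∈ p → q = 0
  alg : ∀ a : S, ∃ q : Polynomial (MvPolynomial (Fin r) ℂ), q ≠ 0 ∧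
    q.eval₂ (MvPolynomial.aeval t : MvPolynomial (Fin r) ℂ →ₐ[ℂ] S).toRingHom a ∈ p

/-- a closed point with the parameters `x` -/
structure Ch (S : Subalgebra ℂ F) (p : Ideal S) (x : Fin N → F) : Prop where
  aff : Aff N S
  pri : p.IsPrime
  mem : ∀ j, ∃ s ∈ p, (s : F) = x j
  gen : ∀ a ∈ p, ∃ c : Fin N → F, (∀ j, c j ∈ Lo S p) ∧ (a : F) = ∑ j, c j * x j
  res : ∀ a : S, ∃ c : ℂ, a - algebraMap ℂ S c ∈ p

/-- `y` is a frame -/
def Frm (y : Fin N → F) : Prop := ∃ D : Fin N → Derivation ℂ F F, Fr y D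

/-- invariant functions -/
def Fix (G : Subgroup (F ≃ₐ[ℂ] F)) (h : F) : Prop := ∀ σ ∈ G, σ h = h

/-- semi-invariant functions -/
def Eig (G : Subgroup (F ≃ₐ[ℂ] F)) (h : F) : Prop := ∀ σ ∈ G, ∃ c : ℂ, σ h = c • h

/-- `G` acts on `Spec S` -/
def Stab (G : Subgroup (F ≃ₐ[ℂ] F)) (S : Subalgebra ℂ F) : Prop := ∀ σ ∈ G, ∀ a ∈ S, σ a ∈ S

/-- `σ` lies in the inertia group of `p` -/
def Inr (S : Subalgebra ℂ F) (p : Ideal S) (σ : F ≃ₐ[ℂ] F) : Prop :=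
  ∀ a : S, ∃ b ∈ p, σ a - a = (b : F)

/-- `A` is a subgroup of index at most `J` of the inertia group of `p` in `G` -/
structure Idx (J : ℕ) (G A : Subgroup (F ≃ₐ[ℂ] F)) (S : Subalgebra ℂ F) (p : Ideal S) : Prop where
  le : A ≤ G
  inr : ∀ σ ∈ A, Inr S p σ
  idx : ∃ T : Finset (F ≃ₐ[ℂ] F), T.card ≤ J ∧ ∀ σ ∈ G, Inr S p σ → ∃ τ ∈ T, τ⁻¹ * σ ∈ A

/-- `e` divides the orders of the invariant functions -/
def Dv (G : Subgroup (F ≃ₐ[ℂ] F)) (P : Pl F) (e : ℕ) : Prop :=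
  ∀ h : F, h ≠ 0 → Fix G h → (e : ℤ) ∣ P.ord h

/-- the log discrepancy of the pair with `m (K + B) = div g`, `K = div dy` -/
def ld (y : Fin N → F) (m : ℕ) (g : F) (P : Pl F) : ℝ := 1 + kap y P - P.ord g / m

/-- the hypothesis (H) at `p` -/
def Hyp (ε : ℝ) (G : Subgroup (F ≃ₐ[ℂ] F)) (S : Subalgebra ℂ F) (p : Ideal S) (y : Fin N → F)
    (m : ℕ) (g : F) : Prop :=
  ∀ P, Cen S p P → ∀ e : ℕ, 0 < e → Dv G P e → ε * e ≤ ld y m g P

/-- every place centred at `p` is separated by a monomial of the right character -/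
def Mon {k : ℕ} (n Q : ℕ) (A : Subgroup (F ≃ₐ[ℂ] F)) (S : Subalgebra ℂ F) (p : Ideal S)
    (x : Fin k → F) (y : Fin N → F) (f : F) : Prop :=
  ∀ P, Cen S p P → ∃ c : Fin k → ℕ, Fix A ((∏ j, x j ^ c j) * f ^ (n / Q) / (∏ j, x j) ^ n) ∧
    (∑ j, (c j : ℝ) * P.ord (x j)) / n < ld y Q f P

/-- every place centred at `p` is separated by an invariant section which is regular along the
prime divisors in `T` -/
def Sol (n : ℕ) (A : Subgroup (F ≃ₐ[ℂ] F)) (S : Subalgebra ℂ F) (p : Ideal S) (T : Pl F → Prop)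
    (y : Fin N → F) (m : ℕ) (g : F) : Prop :=
  ∀ P, Cen S p P → ∃ φ : F, φ ≠ 0 ∧ Fix A φ ∧
    (∀ R, T R → (R.ord g : ℝ) / m ≤ R.ord φ / n) ∧ 0 < ld y n φ P

/-- an invariant pair on the normal affine variety `Spec S` with the action of the finite group
`G` -/
structure Pr (N : ℕ) (G : Subgroup (F ≃ₐ[ℂ] F)) (S : Subalgebra ℂ F) (y : Fin N → F) (m : ℕ)
    (g : F) : Prop where
  aff : Aff N S
  nor : IsIntegrallyClosed S
  fin : Finite G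
  stab : Stab G S
  fy : ∀ i, Fix G (y i)
  fr : Frm y
  pos : 0 < m
  ne : g ≠ 0
  fg : Fix G g

/-- `Q` times the boundary is the divisor of the regular function `h` near `p` -/
def Eqn (Q : ℕ) (S : Subalgebra ℂ F) (p : Ideal S) (y : Fin N → F) (m : ℕ) (g h : F) : Prop :=
  h ∈ Lo S p ∧ h ≠ 0 ∧ ∀ R, PDat S p R → (1 - ld y m g R) * Q = R.ord h

/-- `Spec S` is the complete intersection `f = 0` in the smooth variety `Spec S'` of dimension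
`N + c`, and the action of `G` comes from the action of `G'` -/
structure Lci (N : ℕ) {c : ℕ} (G : Subgroup (F ≃ₐ[ℂ] F)) (S : Subalgebra ℂ F)
    (G' : Subgroup (F' ≃ₐ[ℂ] F')) (S' : Subalgebra ℂ F') (π : S' →ₐ[ℂ] S) (f : Fin c → S') :
    Prop where
  aff : Aff (N + c) S'
  sm : Algebra.Smooth ℂ S'
  fin : Finite G'
  stab : Stab G' S'
  sur : Function.Surjective π
  ker : RingHom.ker π = Ideal.span (range f)
  up : ∀ σ ∈ G, ∃ σ' ∈ G', ∀ a b : S', σ' a = b → σ (π a) = π b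
  down : ∀ σ' ∈ G', ∃ σ ∈ G, ∀ a b : S', σ' a = b → σ (π a) = π b

end defs

/-- a statement for all multiples `n` of a number which depends only on `N`, `Q`, `ε` -/
def Unif (Q : ℕ) (P : ℕ → Prop) : Prop := ∃ n₀ : ℕ, 0 < n₀ ∧ ∀ n, 0 < n → n₀ ∣ n → Q ∣ n → P n

/-- **LT**: closed points, diagonal groups -/
def LT : Prop := ∀ (N Q : ℕ) (ε : ℝ), 0 < Q → 0 < ε → Unif Q fun n =>
  ∀ (F : Type) [Field F] [Algebra ℂ F] (S : Subalgebra ℂ F) (p : Ideal S) (x : Fin N → F)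
    (A : Subgroup (F ≃ₐ[ℂ] F)) (f : F), Ch S p x → Finite A → Stab A S → (∀ σ ∈ A, Inr S p σ) →
    (∀ j, Eig A (x j)) → f ∈ Lo S p → f ≠ 0 → Eig A f → Hyp ε A S p x Q f → Mon n Q A S p x x f

/-- **PT**: all points, diagonal subgroups of the inertia group -/
def PT : Prop := ∀ (k Q : ℕ) (ε : ℝ), 0 < Q → 0 < ε → Unif Q fun n =>
  ∀ (r : ℕ) (F : Type) [Field F] [Algebra ℂ F] (S : Subalgebra ℂ F) (p : Ideal S) (x : Fin k → F)
    (t : Fin r → S) (A : Subgroup (F ≃ₐ[ℂ] F)) (f : F), Par S p x t → Finite A → Stab A S →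
    (∀ σ ∈ A, Inr S p σ) → (∀ j, Eig A (x j)) → (∀ i, Fix A (t i)) → f ∈ Lo S p → f ≠ 0 →
    Eig A f → Hyp ε A S p (Fin.append x fun i => (t i : F)) Q f →
    Mon n Q A S p x (Fin.append x fun i => (t i : F)) f

/-- **RAM**: log discrepancies of a form along a finite extension -/
def RAM : Prop := ∀ (N : ℕ) (K F : Type) [Field K] [Algebra ℂ K] [Field F] [Algebra ℂ F]
  (ι : K →ₐ[ℂ] F) (y : Fin N → K), FF K N → FF F N → Frm y →
    Frm (fun i => ι (y i)) ∧ ∀ P Q, Lies ι.toRingHom P Q →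
      (∀ g, P.ord (ι g) = P.ord (ι Q.t) * Q.ord g) ∧ 0 < P.ord (ι Q.t) ∧
      1 + kap (fun i => ι (y i)) P = P.ord (ι Q.t) * (1 + kap y Q)

/-- **KAP**: change of the frame, conjugation -/
def KAP : Prop := ∀ (N : ℕ) (F : Type) [Field F] [Algebra ℂ F] (x y : Fin N → F)
  (D D' : Fin N → Derivation ℂ F F), Fr x D → Fr y D' →
    jac D y ≠ 0 ∧ (∀ P, kap y P = kap x P + P.ord (jac D y)) ∧
    ∀ (σ : F ≃ₐ[ℂ] F) (P : Pl F), ∃ P' : Pl F, (∀ g, g ∈ P'.ring ↔ σ g ∈ P.ring) ∧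
      (∀ g, P'.ord g = P.ord (σ g)) ∧ kap y P' = kap (fun i => σ (y i)) P

/-- **HRT**: functions on a normal affine variety -/
def HRT : Prop := ∀ (N : ℕ) (F : Type) [Field F] [Algebra ℂ F] (S : Subalgebra ℂ F), Aff N S →
  IsIntegrallyClosed S → (∀ g : F, {R | PD S R ∧ R.ord g ≠ 0}.Finite) ∧
    (∀ g : F, (∀ R, PD S R → g ∈ R.ring) → g ∈ S) ∧
    (∀ (p : Ideal S), p.IsPrime → ∀ g : F, (∀ R, PDat S p R → g ∈ R.ring) → g ∈ Lo S p) ∧
    ∀ q : Ideal S, q.IsPrime → q.height = 1 → ∃ R, Cen S q R ∧ ∀ a ∈ R.ring, a ∈ Lo S q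

/-- **DER**: the frame of a point; the dual derivations preserve the local ring -/
def DER : Prop := ∀ (k r : ℕ) (F : Type) [Field F] [Algebra ℂ F] (S : Subalgebra ℂ F) (p : Ideal S)
  (x : Fin k → F) (t : Fin r → S), Par S p x t →
    ∃ D : Fin (k + r) → Derivation ℂ F F, Fr (Fin.append x fun i => (t i : F)) D ∧ (∀ j, ∀ a ∈ Lo S p, D j a ∈ Lo S p) ∧
      ∀ R, PDat S p R → kap (Fin.append x fun i => (t i : F)) R = 0

/-- **EIG**: coordinates which diagonalise a subgroup of bounded index of the inertia group -/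
def EIG : Prop := ∀ N : ℕ, ∃ J : ℕ, ∀ (F : Type) [Field F] [Algebra ℂ F] (S : Subalgebra ℂ F)
  (G : Subgroup (F ≃ₐ[ℂ] F)) (p : Ideal S), Aff N S → Algebra.Smooth ℂ S → Finite G → Stab G S →
    p.IsPrime → ∃ (A : Subgroup (F ≃ₐ[ℂ] F)) (k r : ℕ) (x : Fin k → F) (t : Fin r → S),
      Idx J G A S p ∧ (∀ σ ∈ A, ∀ τ ∈ A, σ * τ = τ * σ) ∧ Par S p x t ∧ (∀ j, Eig A (x j)) ∧
      ∀ i, Fix G (t i)

/-- **UFD**: on a smooth variety the boundary has a local equation -/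
def UFD : Prop := ∀ (N Q : ℕ) (F : Type) [Field F] [Algebra ℂ F] (S : Subalgebra ℂ F) (p : Ideal S)
  (y : Fin N → F) (m : ℕ) (g : F), Aff N S → Algebra.Smooth ℂ S → p.IsPrime → Frm y →
    IsIntegrallyClosed S ∧ ((∀ R, PDat S p R → ∃ b : ℕ, (1 - ld y m g R) * Q = b) →
      ∃ h, Eqn Q S p y m g h)

/-- **SEM**: the local equation may be taken semi-invariant -/
def SEM : Prop := ∀ (N Q : ℕ) (F : Type) [Field F] [Algebra ℂ F] (S : Subalgebra ℂ F) (p : Ideal S)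
  (A : Subgroup (F ≃ₐ[ℂ] F)) (y : Fin N → F) (m : ℕ) (g h : F), Pr N A S y m g → p.IsPrime →
    (∀ σ ∈ A, Inr S p σ) → Eqn Q S p y m g h → ∃ h', Eqn Q S p y m g h' ∧ Eig A h' ∧ h' ∈ S

/-- **A0**: smooth varieties, up to bounded index -/
def A0 : Prop := ∀ (N Q : ℕ) (ε : ℝ), 0 < Q → 0 < ε → ∃ J : ℕ, Unif Q fun n =>
  ∀ (F : Type) [Field F] [Algebra ℂ F] (G : Subgroup (F ≃ₐ[ℂ] F)) (S : Subalgebra ℂ F)
    (p : Ideal S) (y : Fin N → F) (m : ℕ) (g h : F), Pr N G S y m g → Algebra.Smooth ℂ S →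
    p.IsPrime → Eqn Q S p y m g h → Hyp ε G S p y m g →
    ∃ A, Idx J G A S p ∧ Sol n A S p (PDat S p) y m g

/-- **AC**: complete intersections, up to bounded index -/
def AC (c : ℕ) : Prop := ∀ (N Q : ℕ) (ε : ℝ), 0 < Q → 0 < ε → ∃ J : ℕ, Unif Q fun n =>
  ∀ (F F' : Type) [Field F] [Algebra ℂ F] [Field F'] [Algebra ℂ F'] (G : Subgroup (F ≃ₐ[ℂ] F))
    (S : Subalgebra ℂ F) (G' : Subgroup (F' ≃ₐ[ℂ] F')) (S' : Subalgebra ℂ F') (π : S' →ₐ[ℂ] S)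
    (f : Fin c → S') (p : Ideal S) (y : Fin N → F) (m : ℕ) (g h : F), Pr N G S y m g →
    Lci N G S G' S' π f → p.IsPrime → Eqn Q S p y m g h →
    (∀ q : Ideal S, q ≤ p → Hyp ε G S q y m g) → (∀ R, PDat S p R → 0 < ld y m g R) →
    ∃ A, Idx J G A S p ∧ Sol n A S p (PDat S p) y m g

/-- **NT**: norm and trace -/
def NT : Prop := ∀ (N J n : ℕ) (F : Type) [Field F] [Algebra ℂ F] (G A : Subgroup (F ≃ₐ[ℂ] F))
  (S : Subalgebra ℂ F) (p : Ideal S) (y : Fin N → F) (m : ℕ) (g : F), 0 < n → Pr N G S y m g →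
    p.IsPrime → Idx J G A S p → Sol n A S p (PDat S p) y m g →
    Sol (n * J.factorial) G S p (PD S) y m g

/-- **BER**: the general member of a system -/
def BER : Prop := ∀ (N n : ℕ) (F : Type) [Field F] [Algebra ℂ F] (S : Subalgebra ℂ F)
  (W : Set (Ideal S)) (y : Fin N → F) (u : Finset F), FF F N → S.FG → Frm y → 2 ≤ n →
    (∃ φ ∈ u, φ ≠ 0) → (∀ P, Thp S W P → ∃ φ ∈ u, φ ≠ 0 ∧ 0 < ld y n φ P) →
    ∃ φ ∈ Submodule.span ℂ (u : Set F), φ ≠ 0 ∧ ∀ P, Thp S W P → 0 < ld y n φ P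

/-- **ONE**: one invariant section for all places -/
def ONE : Prop := ∀ (N n : ℕ) (F : Type) [Field F] [Algebra ℂ F] (G : Subgroup (F ≃ₐ[ℂ] F))
  (S : Subalgebra ℂ F) (W : Set (Ideal S)) (y : Fin N → F) (m : ℕ) (g : F), 2 ≤ n →
    Pr N G S y m g → (∀ p : Ideal S, p.IsPrime → (∃ q ∈ W, p ≤ q) → Sol n G S p (PD S) y m g) →
    ∃ φ : F, φ ≠ 0 ∧ Fix G φ ∧ ∀ P, Thp S W P →
      (PD S P → (P.ord g : ℝ) / m ≤ P.ord φ / n) ∧ 0 < ld y n φ P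

/-- `K` is the field of invariants, the action is free in codimension one -/
structure Gq (N : ℕ) {K F : Type} [Field K] [Algebra ℂ K] [Field F] [Algebra ℂ F] [Algebra K F]
    (G : Subgroup (F ≃ₐ[ℂ] F)) (S : Subalgebra ℂ F) (A : Subalgebra ℂ K) : Prop where
  aff : Aff N S
  nor : IsIntegrallyClosed S
  fin : Finite G
  stab : Stab G S
  fix : ∀ h, Fix G h ↔ h ∈ range (algebraMap K F)
  mem : ∀ a, a ∈ A ↔ algebraMap K F a ∈ S
  free : ∀ (q : Ideal S) (R : Pl F), Cen S q R → (∀ a ∈ R.ring, a ∈ Lo S q) → ∀ σ ∈ G,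
    Inr S q σ → σ = 1

/-- **QUO**: the translation of `Quo` -/
def QUO : Prop := ∀ (d : ℕ) (K L S : Type) [Field K] [Algebra ℂ K] [Field L] [Algebra ℂ L]
  [Algebra K L] [IsScalarTower ℂ K L] [CommRing S] [Algebra ℂ S] (c : ℕ) (q : S →ₐ[ℂ] L)
  (f : Fin c → S) (G : Subgroup (S ≃ₐ[ℂ] S)) (A : Subalgebra ℂ K), FF K d → Quo q f G A →
    ∃ G₀, Gq d G₀ q.range A ∧ (c = 0 → Algebra.Smooth ℂ q.range) ∧
      (∀ σ ∈ G₀, ∃ g ∈ G, ∀ s, σ (q s) = q (g s)) ∧ ∀ g ∈ G, ∃ σ ∈ G₀, ∀ s, σ (q s) = q (g s)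

/-- **QUO2**: the ambient variety -/
def QUO2 : Prop := ∀ (d : ℕ) (K L S : Type) [Field K] [Algebra ℂ K] [Field L] [Algebra ℂ L]
  [Algebra K L] [IsScalarTower ℂ K L] [CommRing S] [Algebra ℂ S] (c : ℕ) (q : S →ₐ[ℂ] L)
  (f : Fin c → S) (G : Subgroup (S ≃ₐ[ℂ] S)) (A : Subalgebra ℂ K) (G₀ : Subgroup (L ≃ₐ[ℂ] L)),
    FF L d → Quo q f G A → (∀ σ ∈ G₀, ∃ g ∈ G, ∀ s, σ (q s) = q (g s)) →
    (∀ g ∈ G, ∃ σ ∈ G₀, ∀ s, σ (q s) = q (g s)) →
    ∃ (F' : Type) (_ : Field F') (_ : Algebra ℂ F') (G' : Subgroup (F' ≃ₐ[ℂ] F'))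
      (S' : Subalgebra ℂ F') (π : S' →ₐ[ℂ] q.range) (f' : Fin c → S'), Lci d G₀ q.range G' S' π f'

/-- **FRE**: prime divisors and centres along the quotient map -/
def FRE : Prop := ∀ (N : ℕ) (K F : Type) [Field K] [Algebra ℂ K] [Field F] [Algebra ℂ F]
  [Algebra K F] [IsScalarTower ℂ K F] (G : Subgroup (F ≃ₐ[ℂ] F)) (S : Subalgebra ℂ F)
  (A : Subalgebra ℂ K), Gq N G S A →
    (∀ R Q, PD S R → Lies (algebraMap K F) R Q → Prm A Q ∧ R.ord (algebraMap K F Q.t) = 1) ∧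
    (∀ R Q, Lies (algebraMap K F) R Q → (∀ a ∈ A, a ∈ Q.ring) →
      (∀ s ∈ S, s ∈ R.ring) ∧ (Prm A Q → PD S R)) ∧
    ∀ (χ : A →ₐ[ℂ] ℂ) (p : Ideal S), p.IsPrime →
      (∀ (a : A) (s : S), algebraMap K F a = s → s ∈ p → χ a = 0) →
      ∃ q : Ideal S, q.IsPrime ∧ p ≤ q ∧
        ∀ (a : A) (s : S), algebraMap K F a = s → (s ∈ q ↔ χ a = 0)

/-- **GFR** -/
def GFR : Prop := LT → PT

/-- **A0R** -/
def A0R : Prop := PT → EIG → SEM → KAP → HRT → DER → A0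

/-- **ONER** -/
def ONER : Prop := BER → HRT → ONE

/-- **TOP0** -/
def TOP0 : Prop := RAM → UFD → A0 → NT → ONE → QUO → FRE → Qa (· = 0)

end Vale.Agent.P283R
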