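import Vale.Agent.P283R.Be.A
import Vale.Agent.P283R.Br.Opn
import Vale.Agent.P283R.Tp.St

/-!
# P283R: the row BER
-/

set_option linter.all false

open Set
open Vale.Agent.P285N.Brep (jac Fr)

noncomputable section

namespace Vale.Agent.P283R

open Vale.Agent.P287D

/-- the places through `W` are closed under generalisation -/
theorem thp_up {F : Type} [Field F] [Algebra ℂ F] {u v : Finset F} (o : (1 : F) ∈ v)
    (e : Algebra.adjoin ℂ (v : Set F) = Algebra.adjoin ℂ (u : Set F))
    {W : Set (Ideal (Algebra.adjoin ℂ (u : Set F)))} {P Q : Pl F} (h : Thp _ W Q)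
    (c : CLe (mx v) Q P) : Thp _ W P := by
  obtain ⟨m, q, w, z⟩ := h
  obtain ⟨x, y⟩ := Br.cle_aff o c fun b hb => m b (e.le (Algebra.subset_adjoin hb))
  exact ⟨fun s hs => Br.adj_le x (e.ge hs), q, w, fun a k => z a (y _ (e.ge a.2) k)⟩

theorem ber : BER := by
  classical
  rintro N n F _ _ _ W y u hF ⟨v, rfl⟩ ⟨D, hD⟩ hn hu h
  cases N with
  | zero =>
    obtain ⟨φ, a, b⟩ := hu
    exact ⟨φ, Submodule.subset_span a, b, fun P => (Bm.no_pl hF P).elim⟩
  | succ N =>
    have n0 : (1 : ℝ) < n := by exact_mod_cast hn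
    have e := (Ba.cn_frame hD).2
    have k : ∀ (β : BD F) (P : Pl F), dsc (N + 1) (dv (jac D (Ba.cy F (N + 1))) + β) P =
        kap y P - β P := fun β P => by
      simp only [dsc, e, Pi.sub_apply, Pi.add_apply]; ring
    obtain ⟨f, a, b, c⟩ := Be.ber_klt (S := {P | Thp _ W P}) (u := u) (η := (n : ℝ)⁻¹) hF
      (dv_mem_Car (jac D (Ba.cy F (N + 1)))) (mx_mem_Car (insert 1 v))
      (fun Q q P c => thp_up (Finset.mem_insert_self 1 v)
        (by rw [Finset.coe_insert, Algebra.adjoin_insert_one]) q c)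
      (by positivity) (inv_lt_one_of_one_lt₀ n0) (fun Q q => by
        obtain ⟨φ, a, b, c⟩ := h Q q
        have l : (-Q.ord φ : ℝ) ≤ Q.mz u := by exact_mod_cast Q.le_mz a b
        rw [sub_eq_add_neg, k]
        simp only [ld, div_eq_inv_mul, Pi.neg_apply, Pi.smul_apply, smul_eq_mul, mx_apply] at c ⊢
        nlinarith [mul_le_mul_of_nonneg_left l (show 0 ≤ (n : ℝ)⁻¹ by positivity)]) hu
    refine ⟨f, a, b, fun P p => ?_⟩
    have := c P p
    rw [k] at this
    simp only [ld, div_eq_inv_mul, Pi.smul_apply, smul_eq_mul, dv_apply] at this ⊢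
    linarith

end Vale.Agent.P283R
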