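import Vale.Agent.P283R.Tp.St
import Vale.Agent.P283M.Am.Pl

/-!
# P283R: functions on a normal affine variety (row `HRT`)
-/

open Set

noncomputable section

namespace Vale.Agent.P283R

open Vale.Agent.P287D Vale.Agent.P297Z
open Vale.Agent.P297 (Place)

variable {F : Type} [Field F] [Algebra ℂ F] {N : ℕ} {S : Subalgebra ℂ F} {p q : Ideal S}
  {R : Pl F} {g : F}

theorem Aff.isFrac (h : Aff N S) : IsFractionRing S F := IsFractionRing.of_field S F h.fr

theorem Aff.ft (h : Aff N S) : Algebra.FiniteType ℂ S := (Subalgebra.fg_iff_finiteType S).1 h.fg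

theorem Aff.noeth (h : Aff N S) : IsNoetherianRing S :=
  have := h.ft
  Algebra.FiniteType.isNoetherianRing ℂ S

namespace Hr

theorem ne_of_notMem {t : S} (h : t ∉ q) : (t : F) ≠ 0 := fun e =>
  h ((Subtype.ext e : t = 0) ▸ q.zero_mem)

theorem cen_iff (h : Cen S q R) (a : S) : a ∈ q ↔ (a : F) = 0 ∨ 0 < R.ord a :=
  (h a).2.trans (Bm.rd_zero_iff R (h a).1)

theorem cen_ord (h : Cen S q R) {t : S} (ht : t ∉ q) : R.ord t = 0 := by
  have h1 := Pl.ord_nonneg_of_mem R.toPlace (h t).1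
  have h2 := mt (cen_iff h t).2 ht
  rw [not_or] at h2
  omega

theorem cen_lo (h : Cen S q R) (hg : g ∈ Lo S q) : g ∈ R.ring := by
  obtain ⟨s, t, ht, rfl⟩ := hg
  rw [div_eq_mul_inv]
  exact mul_mem (h s).1 ((Pl.ord_eq_zero_iff R.toPlace (ne_of_notMem ht)).1 (cen_ord h ht)).2

theorem cen_prime (h : Cen S q R) : q.IsPrime := by
  have e : q = RingHom.ker (Bm.rdh R S fun f a => (h ⟨f, a⟩).1) := Ideal.ext fun a => (h a).2
  rw [e]
  exact RingHom.ker_isPrime _

theorem cen_of (hq : q.IsPrime) (h : ∀ a, a ∈ R.ring ↔ a ∈ Lo S q) : Cen S q R := fun a => by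
  have h1 : (1 : S) ∉ q := (Ideal.ne_top_iff_one q).1 hq.ne_top
  have m : (a : F) ∈ R.ring := (h a).2 ⟨a, 1, h1, by simp⟩
  refine ⟨m, ?_⟩
  rw [Bm.rd_zero_iff R m]
  by_cases a0 : (a : F) = 0
  · exact iff_of_true ((Subtype.ext a0 : a = 0) ▸ q.zero_mem) (.inl a0)
  have k := Pl.ord_nonneg_of_mem R.toPlace m
  have k2 := Pl.ord_eq_zero_iff R.toPlace a0
  rw [or_iff_right a0]
  constructor
  · refine fun b => lt_of_le_of_ne k fun e => ?_
    obtain ⟨s, t, ht, e'⟩ := (h _).1 (k2.1 e.symm).2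
    rw [eq_div_iff (ne_of_notMem ht), inv_mul_eq_iff_eq_mul₀ a0] at e'
    exact ht ((Subtype.ext e' : t = a * s) ▸ q.mul_mem_right s b)
  · refine fun b => by_contra fun c => b.ne' (k2.2 ⟨m, (h _).2 ⟨1, a, c, by simp⟩⟩)

/-- the place of a prime ideal of height one -/
theorem exists_place (h : Aff N S) (hn : IsIntegrallyClosed S) (hq : q.IsPrime)
    (h1 : q.height = 1) : ∃ P : Place F, ∀ a, a ∈ P.ring ↔ a ∈ Lo S q := by
  have := h.isFrac
  have := h.noeth
  let O := Localization.subalgebra.ofField F q.primeCompl q.primeCompl_le_nonZeroDivisors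
  have hO : ∀ a, a ∈ O ↔ a ∈ Lo S q := fun a =>
    ⟨fun ⟨s, t, b, e⟩ => ⟨s, t, b, e.trans (div_eq_mul_inv _ _).symm⟩,
      fun ⟨s, t, b, e⟩ => ⟨s, t, b, e.trans (div_eq_mul_inv _ _)⟩⟩
  have : IsLocalRing O := IsLocalization.AtPrime.isLocalRing O q
  have : IsNoetherianRing O := IsLocalization.isNoetherianRing q.primeCompl O inferInstance
  have : IsIntegrallyClosed O :=
    isIntegrallyClosed_of_isLocalization O q.primeCompl q.primeCompl_le_nonZeroDivisors
  have dvr : IsDiscreteValuationRing O := P299.Q.isDiscreteValuationRing_of_dim_one O (by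
    rw [IsLocalization.AtPrime.ringKrullDim_eq_height q O, h1]; rfl)
  have : IsFractionRing O F := IsFractionRing.of_field O F fun z =>
    let ⟨s, t, e⟩ := h.fr z
    ⟨algebraMap S O s, algebraMap S O t, e⟩
  let V : ValuationSubring F := { O.toSubring with
    mem_or_inv_mem' := fun g => (ValuationRing.isInteger_or_isInteger O g).imp
      (fun ⟨a, e⟩ => e ▸ a.2) fun ⟨a, e⟩ => e ▸ a.2 }
  exact ⟨⟨V, dvr⟩, hO⟩

theorem mem_min {A : Type} [CommRing A] [IsDomain A] [IsNoetherianRing A] {I : Ideal A}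
    [I.IsPrime] (hI : I.height = 1) {b : A} (b1 : b ∈ I) (b0 : b ≠ 0) :
    I ∈ (Ideal.span {b}).minimalPrimes := by
  refine ⟨⟨inferInstance, (Ideal.span_singleton_le_iff_mem _).2 b1⟩, fun J a c => ?_⟩
  by_contra d
  have := a.1
  have k1 : (⊥ : Ideal A) < J := bot_lt_iff_ne_bot.2 fun k =>
    b0 (by simpa [k] using a.2 (Ideal.mem_span_singleton_self b))
  have k2 := Ideal.height_strict_mono_of_isPrime k1
  have k3 := Ideal.height_strict_mono_of_isPrime (lt_of_le_not_ge c d)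
  rw [hI] at k3
  rw [Ideal.height_bot] at k2
  exact (Order.one_le_iff_pos.2 k2).not_gt k3

/-- functions which are algebraically independent on a prime divisor -/
theorem exists_ind (h : Aff N S) (hq : q.IsPrime) (h1 : q.height = 1) :
    ∃ (d : ℕ) (w : Fin d → S), d + 1 = N ∧
      ∀ G : MvPolynomial (Fin d) ℂ, G ≠ 0 → MvPolynomial.aeval w G ∉ q := by
  have := h.isFrac
  have := h.noeth
  have := h.ft
  obtain ⟨m, φ, inj, int⟩ := exists_integral_inj_algHom_of_fg ℂ S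
  let z : Fin m → S := fun i => φ (MvPolynomial.X i)
  have ez : MvPolynomial.aeval z = φ := MvPolynomial.algHom_ext fun i => by simp [z]
  have hz : AlgebraicIndependent ℂ z := by rw [AlgebraicIndependent, ez]; exact inj
  have hi : ∀ a : S, IsIntegral (Algebra.adjoin ℂ (Set.range z)) a := fun a => by
    rw [Algebra.adjoin_range_eq_range_aeval, ez]
    obtain ⟨G, a1, a2⟩ := int a
    exact ⟨G.map φ.rangeRestrict.toRingHom, a1.map _, by rw [Polynomial.eval₂_map]; exact a2⟩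
  have hm : m = N := by
    have : Algebra.IsAlgebraic (Algebra.adjoin ℂ (Set.range z)) S := ⟨fun a => (hi a).isAlgebraic⟩
    have k := (hz.isTranscendenceBasis_iff_isAlgebraic.2 this).cardinalMk_eq_trdeg
    have := IsLocalization.isAlgebraic F (nonZeroDivisors S)
    have k2 := Bm.trdeg_eq h.ff
    rw [← trdeg_add_eq ℂ S (A := F), trdeg_eq_zero (R := S), add_zero, ← k, Cardinal.mk_fin] at k2
    exact_mod_cast k2
  obtain ⟨b, b1, b0⟩ := Submodule.exists_mem_ne_zero_of_ne_bot (p := q) fun c => by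
    rw [c, Ideal.height_bot] at h1; exact zero_ne_one h1
  obtain ⟨i, hi⟩ := P271.Drop.drop_core z hz hi b0 (mem_min h1 b1 b0)
  obtain ⟨d, rfl⟩ : ∃ d, m = d + 1 := ⟨m - 1, by have := i.pos; omega⟩
  have hi' := hi.comp (fun j : Fin d => ⟨i.succAbove j, Fin.succAbove_ne i j⟩) fun a b c =>
    Fin.succAbove_right_injective (congrArg Subtype.val c)
  exact ⟨d, fun j => z (i.succAbove j), hm, fun G G0 c => G0
    (algebraicIndependent_iff.1 hi' G ((MvPolynomial.comp_aeval_apply _ (Ideal.Quotient.mkₐ ℂ q)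
      G).symm.trans (Ideal.Quotient.eq_zero_iff_mem.2 c)))⟩

/-- the divisorial place of a prime ideal of height one -/
theorem exists_pl (h : Aff N S) (hn : IsIntegrallyClosed S) (hq : q.IsPrime) (h1 : q.height = 1) :
    ∃ R, Cen S q R ∧ ∀ a ∈ R.ring, a ∈ Lo S q := by
  obtain ⟨P, hP⟩ := exists_place h hn hq h1
  obtain ⟨d, w, hd, hw⟩ := exists_ind h hq h1
  have o : (1 : S) ∉ q := (Ideal.ne_top_iff_one q).1 hq.ne_top
  have m : ∀ a : S, (a : F) ∈ P.ring := fun a => (hP a).2 ⟨a, 1, o, by simp⟩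
  have hc : ∀ c, algebraMap ℂ F c ∈ P.ring := fun c => m (algebraMap ℂ S c)
  refine ⟨⟨P, hc, P270L.S.trdeg_residue (Bm.trdeg_eq h.ff) P
    ⟨hc, d, fun j => w j, hd, fun j => m _, fun G G0 => ?_⟩⟩, cen_of hq hP, fun a => (hP a).1⟩
  have k := hw G G0
  have e : ((MvPolynomial.aeval w G : S) : F) = MvPolynomial.aeval (fun j => (w j : F)) G :=
    MvPolynomial.comp_aeval_apply _ S.val G
  rw [← e, P.val_eq _ (ne_of_notMem k), Pl.ord_unit P (m _) ((hP _).2 ⟨1, _, k, by simp⟩),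
    neg_zero, WithZero.exp_zero]

theorem pd_min (h : Cen S q R) (h' : ∀ a ∈ R.ring, a ∈ Lo S q) {s : S} (s0 : (s : F) ≠ 0)
    (hs : R.ord s ≠ 0) : q ∈ (Ideal.span {s}).minimalPrimes := by
  have k := Pl.ord_nonneg_of_mem R.toPlace (h s).1
  refine ⟨⟨cen_prime h, (Ideal.span_singleton_le_iff_mem _).2
    ((cen_iff h s).2 (.inr (by omega)))⟩, fun J ⟨a, b⟩ c x hx => ?_⟩
  rcases (cen_iff h x).1 hx with e | e
  · exact (Subtype.ext e : x = 0) ▸ J.zero_mem
  have x0 : (x : F) ≠ 0 := fun c => by simp [c] at e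
  obtain ⟨n, hn⟩ := Int.eq_ofNat_of_zero_le k
  obtain ⟨u, t, ht, e'⟩ := h' ((x : F) ^ n / s) ((Pl.ord_nonneg_iff R.toPlace
    (div_ne_zero (pow_ne_zero _ x0) s0)).1 (by
      rw [Pl.ord_div _ (pow_ne_zero _ x0) s0, Pl.ord_pow, hn]; nlinarith [Int.natCast_nonneg n]))
  rw [div_eq_div_iff s0 (ne_of_notMem ht)] at e'
  have k2 : x ^ n * t ∈ J := (Subtype.ext e' : x ^ n * t = u * s) ▸
    J.mul_mem_left u (b (Ideal.mem_span_singleton_self s))
  exact a.mem_of_pow_mem n ((a.mem_or_mem k2).resolve_right fun d => ht (c d))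

theorem fin_reg (h : Aff N S) (s : S) : {R | PD S R ∧ R.ord s ≠ 0}.Finite := by
  by_cases s0 : (s : F) = 0
  · exact finite_empty.subset fun R a => a.2 (by simp [s0])
  have := h.noeth
  refine ((Ideal.finite_minimalPrimes_of_isNoetherianRing S (Ideal.span {s})).biUnion
    (t := fun q => {R | Cen S q R ∧ ∀ a ∈ R.ring, a ∈ Lo S q}) fun q _ => ?_).subset
    fun R ⟨⟨q, a, b⟩, c⟩ => mem_biUnion (pd_min a b s0 c) ⟨a, b⟩
  exact Set.Subsingleton.finite fun R a R' b => Pl.ext_mem fun f =>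
    ⟨fun c => cen_lo b.1 (a.2 f c), fun c => cen_lo a.1 (b.2 f c)⟩

theorem fin_ord (h : Aff N S) (g : F) : {R | PD S R ∧ R.ord g ≠ 0}.Finite := by
  obtain ⟨s, t, rfl⟩ := h.fr g
  refine ((fin_reg h s).union (fin_reg h t)).subset fun R ⟨a, b⟩ => ?_
  by_contra c
  simp only [mem_union, mem_ofPred_eq, not_or, not_and, not_not] at c
  have s0 : (s : F) ≠ 0 := fun e => b (by simp [e])
  have t0 : (t : F) ≠ 0 := fun e => b (by simp [e])
  exact b (by rw [Pl.ord_div _ s0 t0, c.1 a, c.2 a, sub_zero])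

theorem mem_of (h : Aff N S) (hn : IsIntegrallyClosed S) (hg : ∀ R, PD S R → g ∈ R.ring) :
    g ∈ S := by
  have := h.isFrac
  have := h.noeth
  obtain ⟨a, rfl⟩ := P299.Q.exists_of_forall_height_one (R := S) g fun q hq h1 => by
    obtain ⟨R, a, b⟩ := exists_pl h hn hq h1
    obtain ⟨s, t, ht, e⟩ := b g (hg R ⟨q, a, b⟩)
    exact ⟨t, ht, s, by rw [e]; exact mul_div_cancel₀ _ (ne_of_notMem ht)⟩
  exact a.2

theorem lo_of (h : Aff N S) (hn : IsIntegrallyClosed S) (hp : p.IsPrime)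
    (hg : ∀ R, PDat S p R → g ∈ R.ring) : g ∈ Lo S p := by
  classical
  have o : (1 : S) ∉ p := (Ideal.ne_top_iff_one p).1 hp.ne_top
  by_cases g0 : g = 0
  · exact ⟨0, 1, o, by simp [g0]⟩
  have k : ∀ R : Pl F, ∃ t : S, t ∉ p ∧ (PD S R → t * g ∈ R.ring) := fun R => by
    by_cases a : PD S R
    · obtain ⟨q, a, b⟩ := a
      by_cases c : q ≤ p
      · exact ⟨1, o, fun _ => by simpa using hg R ⟨q, c, a, b⟩⟩
      obtain ⟨x, hx, hx'⟩ := SetLike.not_le_iff_exists.1 c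
      have x0 := ne_of_notMem hx'
      have e := ((cen_iff a x).1 hx).resolve_left x0
      refine ⟨x ^ (R.ord g).natAbs, fun d => hx' (hp.mem_of_pow_mem _ d), fun _ => ?_⟩
      rw [SubmonoidClass.coe_pow, ← Pl.ord_nonneg_iff R.toPlace (mul_ne_zero (pow_ne_zero _ x0) g0),
        Pl.ord_mul _ (pow_ne_zero _ x0) g0, Pl.ord_pow, Int.natCast_natAbs]
      nlinarith [abs_nonneg (R.ord g), neg_abs_le (R.ord g)]
    · exact ⟨1, o, fun b => absurd b a⟩
  choose t h1 h2 using k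
  let T := (fin_ord h g).toFinset
  have h3 : ∏ R ∈ T, t R ∉ p := Submonoid.prod_mem p.primeCompl fun R _ => h1 R
  have h4 : (∏ R ∈ T, t R : S) * g ∈ S := mem_of h hn fun R a => by
    obtain ⟨q, b, -⟩ := id a
    by_cases c : R ∈ T
    · rw [← Finset.prod_erase_mul T t c, MulMemClass.coe_mul, mul_assoc]
      exact mul_mem (b _).1 (h2 R a)
    refine mul_mem (b _).1 ((Pl.ord_nonneg_iff R.toPlace g0).1 (le_of_eq (by_contra fun d => ?_)))
    exact c ((fin_ord h g).mem_toFinset.2 ⟨a, fun e => d e.symm⟩)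
  exact ⟨⟨_, h4⟩, _, h3, (mul_div_cancel_left₀ _ (ne_of_notMem h3)).symm⟩

end Hr

theorem hrt : HRT := fun _ _ _ _ _ h hn =>
  ⟨Hr.fin_ord h, fun _ => Hr.mem_of h hn, fun _ hp _ => Hr.lo_of h hn hp,
    fun _ => Hr.exists_pl h hn⟩

end Vale.Agent.P283R
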