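import Vale.Agent.P283R.Tp.St
import Vale.Agent.P287D.Iso.Kap
import Vale.Agent.P287D.Cb.Kap

/-!
# P283R: change of the frame and conjugation
-/

open Vale.Agent.P285N.Brep (jac Fr)

namespace Vale.Agent.P283R

open Vale.Agent.P287D

theorem kap' : KAP := by
  intro N F _ _ x y D D' hx hy
  have h0 : jac D y ≠ 0 := Cb.jac_ne hy hx
  refine ⟨h0, fun P => ?_, fun σ P => ?_⟩
  · rw [Cb.kap_chg hx h0, Pi.add_apply, dv_apply]
  · have h := Semi.of_alg σ
    obtain ⟨Q, rfl⟩ := h.pl.surjective P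
    refine ⟨Q, fun g => h.mem_pl.symm, fun g => (h.ord_pl Q g).symm, ?_⟩
    rw [← h.pb_pl (kap y) Q, h.pb_kap]
    rfl

end Vale.Agent.P283R
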