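import Vale.Agent.P283R.Ty.L
import Vale.Agent.P283R.D.Main
import Vale.Agent.P283R.Tp.Der

/-!
# P283R, row LT
-/

namespace Vale.Agent.P283R

theorem lt_of (h : Co.TT) : LT :=
  Ty.lt_of h (fun _ _ _ _ _ _ hN hQ hn k => D.dd hN hQ hn k) der

end Vale.Agent.P283R
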