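import Vale.Agent.P283R.Tp.Kap
import Vale.Agent.P283R.Tp.Hrt
import Vale.Agent.P283R.Gr.Tr
import Vale.Agent.P287D.Cb.Lg

/-!
# P283R: norm and trace
-/

open Set
open Vale.Agent.P297Z

noncomputable section

namespace Vale.Agent.P283R

open Vale.Agent.P287D

namespace Nt

variable {F : Type} [Field F] [Algebra ℂ F] {N : ℕ} {G A : Subgroup (F ≃ₐ[ℂ] F)}
  {S : Subalgebra ℂ F} {p q : Ideal S} {P P' : Pl F} {σ : F ≃ₐ[ℂ] F}

/-- the inertia group -/
def inr (h : Stab G S) (p : Ideal S) : Subgroup (F ≃ₐ[ℂ] F) where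
  carrier := {σ | σ ∈ G ∧ Inr S p σ}
  one_mem' := ⟨G.one_mem, fun a => ⟨0, p.zero_mem, by simp⟩⟩
  mul_mem' := fun {σ τ} hσ hτ => ⟨G.mul_mem hσ.1 hτ.1, fun a => by
    obtain ⟨b, hb, e⟩ := hτ.2 a
    obtain ⟨c, hc, e'⟩ := hσ.2 ⟨τ a, h τ hτ.1 a a.2⟩
    refine ⟨b + c, p.add_mem hb hc, ?_⟩
    rw [AlgEquiv.mul_apply, Subalgebra.coe_add, ← e, ← e']
    ring⟩
  inv_mem' := fun {σ} hσ => ⟨G.inv_mem hσ.1, fun a => by
    obtain ⟨b, hb, e⟩ := hσ.2 ⟨σ⁻¹ a, h _ (G.inv_mem hσ.1) a a.2⟩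
    refine ⟨-b, p.neg_mem hb, ?_⟩
    have : σ (σ⁻¹ (a : F)) = a := σ.apply_symm_apply a
    rw [Subalgebra.coe_neg, ← e, this]
    ring⟩

/-- the restriction to `S` -/
def rst (h : Stab G S) (hσ : σ ∈ G) : S →+* S :=
  ((σ : F →+* F).comp S.val.toRingHom).codRestrict S fun a => h σ hσ a a.2

theorem rst_coe (h : Stab G S) (hσ : σ ∈ G) (a : S) : (rst h hσ a : F) = σ a := rfl

theorem cen_mx (h : Cen S p P) (a : S) : a ∈ p ↔ Cb.Mx P a :=
  (h a).2.trans (Cb.rd_eq_zero (h a).1)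

theorem cen_mv (h : Stab G S) (hσ : σ ∈ G) (c : Cen S q P) (e : ∀ g, g ∈ P'.ring ↔ σ g ∈ P.ring)
    (o : ∀ g, P'.ord g = P.ord (σ g)) : Cen S (q.comap (rst h hσ)) P' := fun a => by
  have m : (a : F) ∈ P'.ring := (e _).2 (c (rst h hσ a)).1
  refine ⟨m, ?_⟩
  rw [Ideal.mem_comap, cen_mx c, Cb.rd_eq_zero m, Cb.mx_iff, Cb.mx_iff, o, rst_coe]
  simp

theorem lo_mv (h : Stab G S) (hσ : σ ∈ G) (c : ∀ a ∈ P.ring, a ∈ Lo S q)
    (e : ∀ g, g ∈ P'.ring ↔ σ g ∈ P.ring) : ∀ a ∈ P'.ring, a ∈ Lo S (q.comap (rst h hσ)) := by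
  intro a ha
  obtain ⟨s, t, ht, k⟩ := c _ ((e a).1 ha)
  have i : ∀ u : S, rst h hσ (rst h (G.inv_mem hσ) u) = u := fun u =>
    Subtype.ext (σ.apply_symm_apply u)
  refine ⟨rst h (G.inv_mem hσ) s, rst h (G.inv_mem hσ) t, by rwa [Ideal.mem_comap, i], ?_⟩
  rw [rst_coe, rst_coe, ← map_div₀, ← k]
  exact (σ.symm_apply_apply a).symm

theorem comap_inr (h : Stab G S) (hσ : σ ∈ inr h p) : p.comap (rst h hσ.1) = p := by
  ext a
  obtain ⟨b, hb, e⟩ := hσ.2 a
  have : rst h hσ.1 a = a + b := Subtype.ext (by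
    rw [rst_coe, Subalgebra.coe_add, ← e]; ring)
  rw [Ideal.mem_comap, this]
  exact (Ideal.add_mem_iff_left _ hb)

theorem index_le {J : ℕ} (h : Stab G S) (i : Idx J G A S p) [Finite (inr h p)] :
    (A.subgroupOf (inr h p)).index ≤ J := by
  obtain ⟨T, hT, k⟩ := i.idx
  choose f f1 f2 using fun c : inr h p ⧸ A.subgroupOf (inr h p) => k c.out c.out.2.1 c.out.2.2
  rw [Subgroup.index_eq_card]
  refine le_trans (Nat.card_le_card_of_injective (fun c => (⟨f c, f1 c⟩ : T)) fun c d e => ?_)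
    (by simpa using hT)
  have e' : f c = f d := congrArg Subtype.val e
  rw [← QuotientGroup.out_eq' c, ← QuotientGroup.out_eq' d, QuotientGroup.eq,
    Subgroup.mem_subgroupOf]
  have := A.mul_mem (A.inv_mem (f2 c)) (e' ▸ f2 d)
  simpa [mul_assoc] using this

/-- the functions of order more than `r` -/
def gt (P : Pl F) (r : ℤ) : AddSubgroup F := (P.sub (-(r + 1))).toAddSubgroup

theorem mem_gt {r : ℤ} {a : F} : a ∈ gt P r ↔ a = 0 ∨ r < P.ord a := by
  change a ∈ P.sub _ ↔ _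
  rw [Pl.mem_sub, ← sub_eq_add_neg, sub_nonneg]
  norm_cast

theorem gt_mul {r : ℤ} {a w : F} (ha : a ∈ P.ring) (hw : w ∈ gt P r) : a * w ∈ gt P r := by
  rw [mem_gt] at hw ⊢
  by_cases a0 : a = 0
  · simp [a0]
  by_cases w0 : w = 0
  · simp [w0]
  have := (Pl.ord_nonneg_iff P.toPlace a0).2 ha
  have := hw.resolve_left w0
  rw [Pl.ord_mul _ a0 w0]
  omega

/-- the trace for places -/
theorem trace_pl [Fintype G] (h : Stab G S) (c : Cen S p P) {s : F} (s0 : s ≠ 0)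
    (hs : Fix (inr h p) s) {t : S} (ht : t ∉ p) :
    ∃ a ∈ S, Gr.rey G.subtype 1 (a * t * s) ≠ 0 ∧
      P.ord (Gr.rey G.subtype 1 (a * t * s)) ≤ P.ord s := by
  by_contra hn
  have mx : ∀ a, a ∈ S → ∀ m : a ∈ S, (a ∈ gt P 0 ↔ (⟨a, m⟩ : S) ∈ p) := fun a _ m => by
    rw [mem_gt, cen_mx c, Cb.mx_iff]
  obtain ⟨δ, h1, h2, h3⟩ := Gr.trace (α := G.subtype) (χ := 1) (R := S.toSubring) (p := gt P 0)
    (W := gt P (P.ord s)) (s := s) (t := t) (fun g a ha => h g g.2 a ha)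
    (fun a ha w hw => gt_mul (c ⟨a, ha⟩).1 hw)
    (fun a ha b hb e => by
      by_cases a0 : a = 0
      · simp [a0]
      by_cases b0 : b = 0
      · simp [b0]
      have := (Pl.ord_nonneg_iff P.toPlace a0).2 (c ⟨a, ha⟩).1
      have := (Pl.ord_nonneg_iff P.toPlace b0).2 (c ⟨b, hb⟩).1
      simp only [mem_gt, mul_eq_zero, a0, b0, false_or, Pl.ord_mul _ a0 b0] at e ⊢
      omega)
    (fun n hn e => by
      have := P.ord_const n
      rw [map_natCast] at this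
      rw [mem_gt, this] at e
      refine hn (Nat.cast_eq_zero (R := ℂ).1 ((algebraMap ℂ F).injective ?_))
      rw [map_natCast, map_zero]
      exact e.resolve_right (lt_irrefl _))
    t.2 (fun e => ht ((mx _ t.2 t.2).1 e))
    (fun g hg => by
      rw [MonoidHom.one_apply, one_mul]
      refine hs g ⟨g.2, fun a => ?_⟩
      have m : (g : F ≃ₐ[ℂ] F) a - a ∈ S := S.sub_mem (h g g.2 a a.2) a.2
      exact ⟨⟨_, m⟩, (mx _ m m).1 (hg a a.2), rfl⟩)
    (fun a ha w hw => gt_mul (c ⟨a, ha⟩).1 hw)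
    (fun a ha => mem_gt.2 (by
      by_contra e
      rw [not_or, not_lt] at e
      exact hn ⟨a, ha, e⟩))
  rw [mem_gt, not_or] at h2
  have := (Pl.ord_nonneg_iff P.toPlace h2.1).2 (c ⟨δ, h1⟩).1
  rw [mem_gt, Pl.ord_mul _ h2.1 s0] at h3
  have := h3.resolve_left (mul_ne_zero h2.1 s0)
  omega

/-- one invariant function for finitely many places -/
theorem generic {ι : Type} [Finite ι] (V : Submodule ℂ F) (U : ι → Submodule ℂ F)
    (h : ∀ i, ∃ φ ∈ V, φ ∉ U i) : ∃ φ ∈ V, ∀ i, φ ∉ U i := by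
  obtain ⟨x, hx⟩ := Submodule.exists_forall_notMem_of_forall_ne_top
    (fun i => (U i).comap V.subtype) fun i e => by
      obtain ⟨φ, h1, h2⟩ := h i
      have : (⟨φ, h1⟩ : V) ∈ (U i).comap V.subtype := e ▸ Submodule.mem_top
      exact h2 this
  exact ⟨x, x.2, hx⟩

/-- the invariant functions -/
def fixS (A : Subgroup (F ≃ₐ[ℂ] F)) : Submodule ℂ F where
  carrier := {φ | Fix A φ}
  zero_mem' := fun σ _ => map_zero σ
  add_mem' := fun ha hb σ hσ => by rw [map_add, ha σ hσ, hb σ hσ]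
  smul_mem' := fun c _ ha σ hσ => by rw [map_smul, ha σ hσ]

/-- the norm from `A` to the inertia group -/
theorem norm (hK : KAP) {J n m : ℕ} {y : Fin N → F} {g : F} (hn : 0 < n) (h : Pr N G S y m g)
    (i : Idx J G A S p) (hs : Sol n A S p (PDat S p) y m g) :
    Sol (n * J.factorial) (inr h.stab p) S p (PDat S p) y m g := by
  classical
  intro P c
  have := h.fin
  have : Finite (inr h.stab p) := Finite.of_injective
    (fun σ : inr h.stab p => (⟨σ.1, σ.2.1⟩ : G)) fun a b e =>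
      Subtype.ext (congrArg (fun z : G => z.1) e)
  obtain ⟨D, hD⟩ := h.fr
  choose mv m1 m2 m3 using (hK N F y y D D hD hD).2.2
  have n0 : (0 : ℝ) < n := Nat.cast_pos.2 hn
  obtain ⟨φ, h1, h2⟩ := generic
    (fixS A ⊓ ⨅ R, ⨅ _ : PDat S p R, R.sub (-(n * ((R.ord g : ℝ) / m))))
    (fun σ : inr h.stab p => (mv σ P).sub (-(n * (1 + kap y P)))) fun σ => by
      have c' := cen_mv h.stab σ.2.1 c (m1 σ P) (m2 σ P)
      rw [comap_inr h.stab σ.2] at c'
      obtain ⟨φ, φ0, f1, f2, f3⟩ := hs (mv σ P) c'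
      refine ⟨φ, ⟨f1, ?_⟩, fun e => ?_⟩
      · simp only [SetLike.mem_coe, Submodule.mem_iInf]
        intro R hR
        have := f2 R hR
        rw [le_div_iff₀ n0] at this
        exact Or.inr (by linarith)
      · have e := e.resolve_left φ0
        rw [ld, m3, funext fun j => h.fy j σ σ.2.1, sub_pos, div_lt_iff₀ n0] at f3
        linarith
  have φ0 : φ ≠ 0 := fun e => h2 1 (e ▸ Submodule.zero_mem _)
  set B := A.subgroupOf (inr h.stab p) with hB
  have : Fintype (inr h.stab p ⧸ B) := Fintype.ofFinite _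
  have b0 : B.index ≠ 0 := Subgroup.index_ne_zero_of_finite
  obtain ⟨k, hk⟩ : B.index ∣ J.factorial :=
    Nat.dvd_factorial (Nat.pos_of_ne_zero b0) (index_le h.stab i)
  have k0 : (0 : ℝ) < k := Nat.cast_pos.2 (Nat.pos_of_ne_zero fun e =>
    J.factorial_ne_zero (by rw [hk, e, mul_zero]))
  have b1 : (0 : ℝ) < B.index := Nat.cast_pos.2 (Nat.pos_of_ne_zero b0)
  have cd : ((Finset.univ : Finset (inr h.stab p ⧸ B)).card : ℝ) = B.index := by
    rw [Subgroup.index_eq_card, Nat.card_eq_fintype_card, Finset.card_univ]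
  have o : ∀ R : Pl F, (R.ord (Gr.nrm (inr h.stab p).subtype 1 B φ ^ k) : ℝ) =
      k * ∑ d : inr h.stab p ⧸ B, ((mv (d.out : inr h.stab p) R).ord φ : ℝ) := fun R => by
    rw [Pl.ord_pow, Gr.nrm, R.ord_prod _ fun d _ => by simpa using φ0]
    simp [m2]
  refine ⟨Gr.nrm (inr h.stab p).subtype 1 B φ ^ k, pow_ne_zero _ (Gr.nrm_ne φ0), fun σ hσ => ?_,
    fun R hR => ?_, ?_⟩
  · have := Gr.nrm_semi (α := (inr h.stab p).subtype) (χ := 1) (A := B) (x := φ) (by simp)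
      (fun a ha => by simpa using h1.1 a ha) ⟨σ, hσ⟩
    rw [map_pow]
    simpa using congrArg (· ^ k) this
  · have l : ∀ d : inr h.stab p ⧸ B, n * ((R.ord g : ℝ) / m) ≤
        (mv (d.out : inr h.stab p) R).ord φ := fun d => by
      obtain ⟨q, hq, c1, c2⟩ := hR
      have e := h1.2
      simp only [SetLike.mem_coe, Submodule.mem_iInf] at e
      have := (e (mv d.out R) ⟨_, (Ideal.comap_mono hq).trans (comap_inr h.stab d.out.2).le,
        cen_mv h.stab d.out.2.1 c1 (m1 _ R) (m2 _ R),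
        lo_mv h.stab d.out.2.1 c2 (m1 _ R)⟩).resolve_left φ0
      rw [m2 _ R g, h.fg _ d.out.2.1] at this
      linarith
    have := Finset.sum_le_sum fun d (_ : d ∈ Finset.univ) => l d
    rw [Finset.sum_const, nsmul_eq_mul, cd] at this
    rw [o, hk, le_div_iff₀ (by push_cast; positivity)]
    push_cast
    nlinarith
  · have l : ∀ d : inr h.stab p ⧸ B,
        ((mv (d.out : inr h.stab p) P).ord φ : ℝ) < n * (1 + kap y P) := fun d => by
      have := h2 d.out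
      rw [Pl.mem_sub, not_or, not_le] at this
      linarith [this.2]
    have := Finset.sum_lt_sum_of_nonempty Finset.univ_nonempty fun d _ => l d
    rw [Finset.sum_const, nsmul_eq_mul, cd] at this
    rw [ld, o, hk, sub_pos, div_lt_iff₀ (by push_cast; positivity)]
    push_cast
    nlinarith

/-- the trace from the inertia group to `G` -/
theorem trace (hK : KAP) (hH : HRT) {n m : ℕ} {y : Fin N → F} {g : F} (hn : 0 < n)
    (h : Pr N G S y m g) (hp : p.IsPrime) (hs : Sol n (inr h.stab p) S p (PDat S p) y m g) :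
    Sol n G S p (PD S) y m g := by
  classical
  intro P c
  have := h.fin
  have : Fintype G := Fintype.ofFinite _
  obtain ⟨D, hD⟩ := h.fr
  choose mv m1 m2 m3 using (hK N F y y D D hD hD).2.2
  have n0 : (0 : ℝ) < n := Nat.cast_pos.2 hn
  have m0 : (0 : ℝ) < m := Nat.cast_pos.2 h.pos
  obtain ⟨φ, φ0, f1, f2, f3⟩ := hs P c
  have u0 : φ ^ m / g ^ n ≠ 0 := div_ne_zero (pow_ne_zero _ φ0) (pow_ne_zero _ h.ne)
  have o : ∀ R : Pl F, R.ord (φ ^ m / g ^ n) = m * R.ord φ - n * R.ord g := fun R => by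
    rw [Pl.ord_div _ (pow_ne_zero _ φ0) (pow_ne_zero _ h.ne), Pl.ord_pow, Pl.ord_pow]
  obtain ⟨s, t, ht, e⟩ := (hH N F S h.aff h.nor).2.2.1 p hp (φ ^ m / g ^ n) fun R hR => by
    have := f2 R hR
    rw [div_le_div_iff₀ m0 n0] at this
    rw [← Pl.ord_nonneg_iff _ u0, o, ← Int.cast_le (R := ℝ)]
    push_cast
    linarith
  have t0 : (t : F) ≠ 0 := fun e => ht ((Subtype.ext e : t = 0) ▸ p.zero_mem)
  have s0 : (s : F) ≠ 0 := fun e' => u0 (by rw [e, e', zero_div])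
  have l : ∀ R, PD S R → ∀ a ∈ S, a * t * φ ∈ R.sub (-(n * ((R.ord g : ℝ) / m))) := by
    rintro R ⟨q, c1, -⟩ a ha
    by_cases a0 : a = 0
    · simp [a0]
    have h1 := (Pl.ord_nonneg_iff R.toPlace a0).2 (c1 ⟨a, ha⟩).1
    have h2 := (Pl.ord_nonneg_iff R.toPlace t0).2 (c1 t).1
    have h3 := (Pl.ord_nonneg_iff R.toPlace s0).2 (c1 s).1
    have h4 := o R
    rw [e, Pl.ord_div _ s0 t0] at h4
    have h5 : (1 : ℤ) ≤ m := by exact_mod_cast h.pos
    have h6 : n * R.ord g ≤ (R.ord a + R.ord t + R.ord φ) * m := by nlinarith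
    refine Or.inr ?_
    rw [Pl.ord_mul _ (mul_ne_zero a0 t0) φ0, Pl.ord_mul _ a0 t0, ← sub_eq_add_neg, sub_nonneg,
      ← mul_div_assoc, div_le_iff₀ m0]
    exact_mod_cast h6
  obtain ⟨a, ha, r0, r1⟩ := trace_pl h.stab c φ0 f1 ht
  refine ⟨_, r0, fun σ hσ => ?_, fun R hR => ?_, ?_⟩
  · simpa using Gr.rey_semi (α := G.subtype) (χ := 1) (by simp) (a * t * φ) ⟨σ, hσ⟩
  · have : Gr.rey G.subtype 1 (a * t * φ) ∈ R.sub (-(n * ((R.ord g : ℝ) / m))) :=
      Submodule.sum_mem _ fun σ _ => by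
        obtain ⟨q, c1, c2⟩ := hR
        have := l (mv σ R) ⟨_, cen_mv h.stab σ.2 c1 (m1 _ R) (m2 _ R),
          lo_mv h.stab σ.2 c2 (m1 _ R)⟩ a ha
        rw [Pl.mem_sub, m2, m2, h.fg _ σ.2] at this
        rw [MonoidHom.one_apply, one_mul, Pl.mem_sub]
        exact this.imp_left fun e => by rw [e, map_zero]
    have := this.resolve_left r0
    rw [le_div_iff₀ n0]
    linarith
  · rw [ld, sub_pos, div_lt_iff₀ n0] at f3 ⊢
    exact lt_of_le_of_lt (Int.cast_le.2 r1) f3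

end Nt

/-- **NT** -/
theorem nt_of (hK : KAP) (hH : HRT) : NT := fun _ J _ _ _ _ _ _ _ _ _ _ _ hn h hp i hs =>
  Nt.trace hK hH (Nat.mul_pos hn J.factorial_pos) h hp (Nt.norm hK hn h i hs)

theorem nt : NT := nt_of kap' hrt

end Vale.Agent.P283R
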