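import Vale.Agent.P283R.Tp.St
import Vale.Agent.P287D.Va.Bas

/-!
# P283R: one invariant section for all places
-/

open Set
open Vale.Agent.P297Z.Pl

noncomputable section

namespace Vale.Agent.P283R

open Vale.Agent.P287D

namespace Oner

variable {F : Type} [Field F] [Algebra ℂ F]

/-- the residue map on a subalgebra of the ring of a place -/
def rdS (S : Subalgebra ℂ F) (P : Pl F) (h : ∀ s ∈ S, s ∈ P.ring) : S →+* P.κ :=
  (IsLocalRing.residue P.ring).comp (S.val.toRingHom.codRestrict P.ring fun a => h a a.2)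

theorem rdS_apply (S : Subalgebra ℂ F) (P : Pl F) (h : ∀ s ∈ S, s ∈ P.ring) (a : S) :
    rdS S P h a = P.rd a := (dif_pos (h a a.2) : P.rd a = _).symm

theorem exists_cen (S : Subalgebra ℂ F) (P : Pl F) (h : ∀ s ∈ S, s ∈ P.ring) :
    ∃ p : Ideal S, p.IsPrime ∧ Cen S p P :=
  ⟨RingHom.ker (rdS S P h), RingHom.ker_isPrime _, fun a =>
    ⟨h a a.2, by rw [RingHom.mem_ker, rdS_apply]⟩⟩

/-- the functions of order at least `r` form a module over the regular functions -/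
def subS (S : Subalgebra ℂ F) (P : Pl F) (h : ∀ s ∈ S, s ∈ P.ring) (r : ℝ) : Submodule S F where
  carrier := P.sub r
  zero_mem' := (P.sub r).zero_mem
  add_mem' := (P.sub r).add_mem
  smul_mem' := fun a f hf => by
    change (a : F) * f ∈ P.sub r
    by_cases a0 : (a : F) = 0
    · simp [a0]
    by_cases f0 : f = 0
    · simp [f0]
    have h1 := (P.mem_sub.1 hf).resolve_left f0
    have h2 : (0 : ℝ) ≤ P.ord (a : F) := by exact_mod_cast ord_nonneg_of_mem _ (h a a.2)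
    refine P.mem_sub.2 (Or.inr ?_)
    rw [ord_mul _ a0 f0]
    push_cast
    linarith

theorem exists_fin (S : Subalgebra ℂ F) (hS : S.FG) (V : Set F) {b : F} (hb : b ≠ 0)
    (h : ∀ φ ∈ V, b * φ ∈ S) :
    ∃ u : Finset F, (u : Set F) ⊆ V ∧ V ⊆ Submodule.span S (u : Set F) := by
  have : Algebra.FiniteType ℂ S := S.fg_iff_finiteType.1 hS
  have : IsNoetherianRing S := Algebra.FiniteType.isNoetherianRing ℂ S
  have h1 : Submodule.span S V ≤ Submodule.span S {b⁻¹} := Submodule.span_le.2 fun φ hφ =>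
    Submodule.mem_span_singleton.2 ⟨⟨_, h φ hφ⟩, by
      change b * φ * b⁻¹ = φ
      field_simp⟩
  have : IsNoetherian S (Submodule.span S {b⁻¹}) :=
    isNoetherian_of_fg_of_noetherian _ (Submodule.fg_span_singleton _)
  have h2 : (Submodule.span S V).FG := isNoetherian_submodule.1 this _ h1
  obtain ⟨u, hu, e⟩ := (Submodule.fg_span_iff_fg_span_finset_subset V).1 h2
  exact ⟨u, hu, fun φ hφ => e ▸ Submodule.subset_span hφ⟩

end Oner

open Oner in
theorem oner : ONER := by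
  intro ber hrt N n F _ _ G S W y m g hn hp hs
  by_cases hW : ∃ P, Thp S W P
  swap
  · exact ⟨1, one_ne_zero, fun σ _ => map_one σ, fun P hP => (hW ⟨P, hP⟩).elim⟩
  have n0 : (0 : ℝ) < n := by exact_mod_cast (by omega : 0 < n)
  have m1 : (1 : ℝ) ≤ m := by exact_mod_cast hp.pos
  let V : Submodule ℂ F :=
    { carrier := {φ | Fix G φ ∧ ∀ R, PD S R → φ ∈ R.sub (-(n * ((R.ord g : ℝ) / m)))}
      zero_mem' := ⟨fun σ _ => map_zero σ, fun R _ => Submodule.zero_mem _⟩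
      add_mem' := fun h h' => ⟨fun σ hσ => by rw [map_add, h.1 σ hσ, h'.1 σ hσ],
        fun R hR => Submodule.add_mem _ (h.2 R hR) (h'.2 R hR)⟩
      smul_mem' := fun c φ h => ⟨fun σ hσ => by rw [map_smul, h.1 σ hσ],
        fun R hR => Submodule.smul_mem _ c (h.2 R hR)⟩ }
  obtain ⟨s, t, hg⟩ := hp.aff.fr g
  have s0 : (s : F) ≠ 0 := fun e => hp.ne (by rw [hg, e, zero_div])
  have t0 : (t : F) ≠ 0 := fun e => hp.ne (by rw [hg, e, div_zero])
  have hb : ∀ φ ∈ (V : Set F), (t : F) ^ n * φ ∈ S := fun φ hφ => by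
    by_cases φ0 : φ = 0
    · simp [φ0]
    refine (hrt N F S hp.aff hp.nor).2.1 _ fun R hR => ?_
    obtain ⟨q, hq, -⟩ := id hR
    have h1 := (R.mem_sub.1 (hφ.2 R hR)).resolve_left φ0
    have h2 : (0 : ℝ) ≤ R.ord (s : F) := by exact_mod_cast ord_nonneg_of_mem _ (hq s).1
    have h3 : (0 : ℝ) ≤ R.ord (t : F) := by exact_mod_cast ord_nonneg_of_mem _ (hq t).1
    have h4 : -(R.ord (t : F) : ℝ) ≤ (R.ord g : ℝ) / m := by
      rw [le_div_iff₀ (by linarith), hg, ord_div _ s0 t0]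
      push_cast
      nlinarith
    rw [← ord_nonneg_iff _ (mul_ne_zero (pow_ne_zero _ t0) φ0), ord_mul _ (pow_ne_zero _ t0) φ0,
      ord_pow]
    have h5 : (0 : ℝ) ≤ n * R.ord (t : F) + R.ord φ := by nlinarith
    exact_mod_cast h5
  obtain ⟨u, hu, hV⟩ := exists_fin S hp.aff.fg V (pow_ne_zero n t0) hb
  have key : ∀ P, Thp S W P → ∃ φ ∈ u, φ ≠ 0 ∧ 0 < ld y n φ P := fun P hP => by
    obtain ⟨p, hp1, hp2⟩ := exists_cen S P hP.1
    obtain ⟨q, hq, hq'⟩ := hP.2
    obtain ⟨φ, φ0, h1, h2, h3⟩ := hs p hp1 ⟨q, hq, fun a ha => hq' a ((hp2 a).2.1 ha)⟩ P hp2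
    have h4 : φ ∈ V := ⟨h1, fun R hR => R.mem_sub.2 (Or.inr (by
      have := (le_div_iff₀ n0).1 (h2 R hR)
      linarith))⟩
    have nz : Nz u := by
      by_contra h
      have : Submodule.span S (u : Set F) ≤ ⊥ := Submodule.span_le.2 fun f hf => by
        by_contra h'
        exact h ⟨f, hf, h'⟩
      exact φ0 (this (hV h4))
    obtain ⟨f, hf, f0, e⟩ := P.exists_mz nz
    have h5 : Submodule.span S (u : Set F) ≤ subS S P hP.1 (P.mz u) :=
      Submodule.span_le.2 fun a ha => P.span_le_sub u (Submodule.subset_span ha)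
    have h6 := (P.mem_sub.1 (h5 (hV h4))).resolve_left φ0
    refine ⟨f, hf, f0, lt_of_lt_of_le h3 ?_⟩
    rw [e] at h6
    push_cast at h6
    have h7 : (P.ord f : ℝ) / n ≤ P.ord φ / n := div_le_div_of_nonneg_right (by linarith) n0.le
    unfold ld
    linarith
  obtain ⟨P₀, hP₀⟩ := hW
  obtain ⟨f, hf, f0, -⟩ := key P₀ hP₀
  obtain ⟨φ, h1, φ0, h2⟩ := ber N n F S W y u hp.aff.ff hp.aff.fg hp.fr hn ⟨f, hf, f0⟩ key
  have h3 : φ ∈ V := Submodule.span_le.2 hu h1
  refine ⟨φ, φ0, h3.1, fun P hP => ⟨fun hR => ?_, h2 P hP⟩⟩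
  have := (P.mem_sub.1 (h3.2 P hR)).resolve_left φ0
  rw [le_div_iff₀ n0]
  linarith

end Vale.Agent.P283R
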