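import Vale.Agent.P283R.Tp.St
import Vale.Agent.P287D.Hd.Cm
import Vale.Agent.P287D.Bm.Pl

/-!
# P283R: the row `QUO`
-/

set_option linter.all false

open Set

noncomputable section

namespace Vale.Agent.P283R

open Vale.Agent.P287D Vale.Agent.P297Z

namespace Qu

variable {K L S : Type} [Field K] [Algebra ℂ K] [Field L] [Algebra ℂ L] [Algebra K L]
  [CommRing S] [Algebra ℂ S] {c : ℕ} {q : S →ₐ[ℂ] L} {f : Fin c → S} {G : Subgroup (S ≃ₐ[ℂ] S)}
  {A : Subalgebra ℂ K}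

theorem frac (h : Quo q f G A) : IsFractionRing q.range L :=
  IsFractionRing.of_field _ _ fun b =>
    let ⟨s, t, _, e⟩ := h.frL b; ⟨⟨_, s, rfl⟩, ⟨_, t, rfl⟩, e⟩

theorem ext (h : Quo q f G A) {σ τ : L →ₐ[ℂ] L} (e : ∀ s, σ (q s) = τ (q s)) : σ = τ :=
  AlgHom.ext fun b => by
    obtain ⟨s, t, -, rfl⟩ := h.frL b
    rw [map_div₀, map_div₀, e, e]

theorem hom (h : Quo q f G A) {g : S ≃ₐ[ℂ] S} (hg : g ∈ G) :
    ∃ σ : L →ₐ[ℂ] L, ∀ s, σ (q s) = q (g s) := by
  have := frac h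
  let φ : q.range →ₐ[ℂ] L := AlgHom.liftOfSurjective q.rangeRestrict q.rangeRestrict_surjective
    (q.comp g.toAlgHom) fun s hs => h.stab g hg s (congrArg Subtype.val hs)
  have e : ∀ s, φ (q.rangeRestrict s) = q (g s) := fun s =>
    AlgHom.liftOfSurjective_apply _ _ _ _ s
  have i : Function.Injective φ := (injective_iff_map_eq_zero φ).2 fun a ha => by
    obtain ⟨s, rfl⟩ := q.rangeRestrict_surjective a
    have := h.stab g⁻¹ (inv_mem hg) _ ((e s).symm.trans ha)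
    exact Subtype.ext ((congrArg q (g.symm_apply_apply s)).symm.trans this)
  exact ⟨IsFractionRing.liftAlgHom i, fun s =>
    (IsFractionRing.lift_algebraMap i (q.rangeRestrict s)).trans (e s)⟩

theorem aut (h : Quo q f G A) {g : S ≃ₐ[ℂ] S} (hg : g ∈ G) :
    ∃ σ : L ≃ₐ[ℂ] L, ∀ s, σ (q s) = q (g s) := by
  obtain ⟨σ, a⟩ := hom h hg
  obtain ⟨τ, b⟩ := hom h (inv_mem hg)
  exact ⟨.ofAlgHom σ τ (ext h fun s => by
      rw [AlgHom.comp_apply, b, a]; exact congrArg q (g.apply_symm_apply s))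
    (ext h fun s => by
      rw [AlgHom.comp_apply, a, b]; exact congrArg q (g.symm_apply_apply s)), a⟩

/-- the image of `G` in the automorphisms of `L` -/
def im (q : S →ₐ[ℂ] L) (G : Subgroup (S ≃ₐ[ℂ] S)) : Subgroup (L ≃ₐ[ℂ] L) where
  carrier := {σ | ∃ g ∈ G, ∀ s, σ (q s) = q (g s)}
  one_mem' := ⟨1, one_mem _, fun _ => rfl⟩
  mul_mem' := by
    rintro σ τ ⟨g, a, b⟩ ⟨g', a', b'⟩
    exact ⟨g * g', mul_mem a a', fun s => by rw [AlgEquiv.mul_apply, b', b, AlgEquiv.mul_apply]⟩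
  inv_mem' := by
    rintro σ ⟨g, a, b⟩
    exact ⟨g⁻¹, inv_mem a, fun s => σ.symm_apply_eq.2
      ((congrArg q (g.apply_symm_apply s)).symm.trans (b _).symm)⟩

theorem fin (h : Quo q f G A) : Finite (im q G) := by
  have := h.fin
  choose σ hσ using fun g : G => aut h g.2
  refine Finite.of_surjective (fun g : G => (⟨σ g, g, g.2, hσ g⟩ : im q G)) ?_
  rintro ⟨τ, g, a, b⟩
  exact ⟨⟨g, a⟩, Subtype.ext (AlgEquiv.coe_algHom_injective
    (ext h fun s => (hσ ⟨g, a⟩ s).trans (b s).symm))⟩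

theorem fix_of (h : Quo q f G A) (a : K) : Fix (im q G) (algebraMap K L a) := by
  rintro σ ⟨g, hg, e⟩
  have k : ∀ b ∈ A, σ (algebraMap K L b) = algebraMap K L b := fun b hb => by
    obtain ⟨s, x, y⟩ := (h.inv _).1 ⟨b, hb, rfl⟩
    rw [← y, e, x g hg]
  obtain ⟨b, hb, b', hb', -, rfl⟩ := h.frK a
  rw [map_div₀, map_div₀, k b hb, k b' hb']

theorem of_fix (h : Quo q f G A) {s : S} (e : Fix (im q G) (q s)) :
    ∃ a ∈ A, algebraMap K L a = q s :=
  (h.inv _).2 ⟨s, fun g hg => let ⟨σ, a⟩ := aut h hg; (a s).symm.trans (e σ ⟨g, hg, a⟩), rfl⟩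

theorem fix (h : Quo q f G A) (b : L) : Fix (im q G) b ↔ b ∈ range (algebraMap K L) := by
  classical
  refine ⟨fun e => ?_, by rintro ⟨a, rfl⟩; exact fix_of h a⟩
  have := h.fin
  have := Fintype.ofFinite G
  obtain ⟨s, t, t0, rfl⟩ := h.frL b
  have n : Fix (im q G) (q (∏ g : G, g.1 t)) := by
    rintro σ ⟨g, hg, k⟩
    rw [k, map_prod g]
    exact congrArg q (Fintype.prod_equiv (Equiv.mulLeft (⟨g, hg⟩ : G)) _ _ fun _ => rfl)
  have n0 : q (∏ g : G, g.1 t) ≠ 0 := by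
    rw [map_prod]
    exact Finset.prod_ne_zero_iff.2 fun g _ z => t0
      ((congrArg q (g.1.symm_apply_apply t)).symm.trans (h.stab g.1⁻¹ (inv_mem g.2) _ z))
  have m : q s / q t * q (∏ g : G, g.1 t) = q (s * ∏ g ∈ Finset.univ.erase (1 : G), g.1 t) := by
    rw [← Finset.mul_prod_erase _ _ (Finset.mem_univ (1 : G)), map_mul, map_mul, ← mul_assoc]
    exact congrArg (· * _) (div_mul_cancel₀ _ t0)
  obtain ⟨a, -, ha⟩ := of_fix h n
  obtain ⟨a', -, ha'⟩ := of_fix h (s := s * ∏ g ∈ Finset.univ.erase (1 : G), g.1 t)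
    fun σ hσ => by rw [← m, map_mul, e σ hσ, n σ hσ]
  exact ⟨a' / a, by rw [map_div₀, ha, ha', ← m, mul_div_cancel_right₀ _ n0]⟩

theorem fd (h : Quo q f G A) : FiniteDimensional K L := by
  have := fin h
  let φ : K →+* FixedPoints.subfield (im q G) L :=
    (algebraMap K L).codRestrict _ fun a σ => fix_of h a σ.1 σ.2
  let _ := φ.toAlgebra
  have : IsScalarTower K (FixedPoints.subfield (im q G) L) L := .of_algebraMap_eq fun _ => rfl
  have : Module.Finite K (FixedPoints.subfield (im q G) L) :=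
    .of_surjective (Algebra.linearMap _ _) fun b =>
      let ⟨a, e⟩ := (fix h b.1).1 fun σ hσ => b.2 ⟨σ, hσ⟩; ⟨a, Subtype.ext e⟩
  exact Module.Finite.trans (FixedPoints.subfield (im q G) L) L

theorem free (h : Quo q f G A) (p : Ideal q.range) (R : Pl L) (a : Cen q.range p R)
    (b : ∀ a ∈ R.ring, a ∈ Lo q.range p) (σ : L ≃ₐ[ℂ] L) (hσ : σ ∈ im q G)
    (i : Inr q.range p σ) : σ = 1 := by
  classical
  obtain ⟨g, hg, e⟩ := hσ
  by_cases g1 : g = 1
  · exact AlgEquiv.coe_algHom_injective (ext h fun s => (e s).trans (by rw [g1]; rfl))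
  exfalso
  have := h.sm
  have : IsNoetherianRing S := Algebra.FiniteType.isNoetherianRing ℂ S
  have m : ∀ s, q s ∈ R.ring := fun s => (a (q.rangeRestrict s)).1
  have z : ∀ s, s ∈ p.comap q.rangeRestrict ↔ q s = 0 ∨ 0 < R.ord (q s) := fun s =>
    (a (q.rangeRestrict s)).2.trans (Bm.rd_zero_iff R (m s))
  have pr : (p.comap q.rangeRestrict).IsPrime := by
    refine ⟨(Ideal.ne_top_iff_one _).2 fun k => ?_, fun {x y} k => ?_⟩
    · rw [z, map_one, Pl.ord_one] at k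
      simp at k
    · have := (a (q.rangeRestrict (x * y))).2.1 k
      change R.rd (q (x * y)) = 0 at this
      rw [map_mul, Bm.rd_mul R (m x) (m y), mul_eq_zero] at this
      exact this.imp (a (q.rangeRestrict x)).2.2 (a (q.rangeRestrict y)).2.2
  have le : RingHom.ker q ≤ p.comap q.rangeRestrict := fun s hs => (z s).2 (.inl hs)
  have ht := h.free g hg g1 _ pr le fun s => by
    obtain ⟨u, hu, k⟩ := i (q.rangeRestrict s)
    change σ (q s) - q s = u at k
    rw [e, ← map_sub] at k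
    exact Ideal.mem_comap.2 ((Subtype.ext k : q.rangeRestrict (g s - s) = u) ▸ hu)
  by_cases w : ∃ x ∈ p.comap q.rangeRestrict, q x ≠ 0
  swap
  · rw [le_antisymm (fun x hx => by_contra fun k => w ⟨x, hx, k⟩) le, h.ht] at ht
    exact absurd (by exact_mod_cast ht : c + 2 ≤ c) (by omega)
  obtain ⟨x, hx, x0⟩ := w
  have sp : Ideal.span ((insert x (Finset.univ.image f) : Finset S) : Set S) =
      Ideal.span {x} ⊔ RingHom.ker q := by
    rw [h.ker, Finset.coe_insert, Ideal.span_insert, Finset.coe_image, Finset.coe_univ,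
      image_univ]
  have mp : p.comap q.rangeRestrict ∈
      (Ideal.span ((insert x (Finset.univ.image f) : Finset S) : Set S)).minimalPrimes := by
    rw [sp]
    refine ⟨⟨pr, sup_le ((Ideal.span_singleton_le_iff_mem _).2 hx) le⟩, fun J hJ k y hy => ?_⟩
    have kJ : RingHom.ker q ≤ J := le_sup_right.trans hJ.2
    rcases eq_or_ne (q y) 0 with y0 | y0
    · exact kJ y0
    have o := ((z y).1 hy).resolve_left y0
    have ox := Pl.ord_nonneg_of_mem _ (m x)
    have r : q y ^ (R.ord (q x)).toNat / q x ∈ R.ring :=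
      (Pl.ord_nonneg_iff _ (div_ne_zero (pow_ne_zero _ y0) x0)).1 (by
        rw [Pl.ord_div _ (pow_ne_zero _ y0) x0, Pl.ord_pow, Int.toNat_of_nonneg ox]
        nlinarith)
    obtain ⟨u, v, v0, uv⟩ := b _ r
    obtain ⟨u, rfl⟩ := q.rangeRestrict_surjective u
    obtain ⟨v, rfl⟩ := q.rangeRestrict_surjective v
    have v1 : q v ≠ 0 := fun c => v0 ((z v).2 (.inl c))
    have : v * y ^ (R.ord (q x)).toNat - u * x ∈ J := kJ (by
      change _ = q u / q v at uv
      rw [div_eq_div_iff x0 v1] at uv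
      rw [RingHom.mem_ker, map_sub, map_mul, map_mul, map_pow, ← uv, mul_comm, sub_self])
    have := add_mem this (J.mul_mem_left u
      (hJ.2 (Ideal.mem_sup_left (Ideal.mem_span_singleton_self x))))
    rw [sub_add_cancel] at this
    exact hJ.1.mem_of_pow_mem _ ((hJ.1.mem_or_mem this).resolve_left fun c => v0 (k c))
  have := ht.trans (Ideal.height_le_card_of_mem_minimalPrimes_span_finset mp)
  have n : c + 2 ≤ (insert x (Finset.univ.image f)).card := by exact_mod_cast this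
  have := (Finset.card_insert_le x (Finset.univ.image f)).trans
    (Nat.succ_le_succ Finset.card_image_le)
  rw [Finset.card_univ, Fintype.card_fin] at this
  omega

theorem gq [IsScalarTower ℂ K L] {d : ℕ} (hK : FF K d) (h : Quo q f G A) :
    Gq d (im q G) q.range A := by
  have := h.sm
  have := fd h
  have := frac h
  refine ⟨⟨Hd.ff_up hK, ?_, fun b => let ⟨s, t, _, e⟩ := h.frL b; ⟨⟨_, s, rfl⟩, ⟨_, t, rfl⟩, e⟩⟩,
    (isIntegrallyClosed_iff L).2 fun {b} hb => ⟨⟨b, h.nor b hb⟩, rfl⟩, fin h, ?_, fix h,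
    fun a => ⟨fun ha => ?_, fun ⟨s, hs⟩ => ?_⟩, free h⟩
  · rw [← Algebra.map_top]
    exact Subalgebra.FG.map _ Algebra.FiniteType.out
  · rintro σ ⟨g, -, e⟩ _ ⟨s, rfl⟩
    exact ⟨g s, (e s).symm⟩
  · obtain ⟨s, -, e⟩ := (h.inv _).1 ⟨a, ha, rfl⟩
    exact ⟨s, e⟩
  · have hs : q s = algebraMap K L a := hs
    obtain ⟨b, hb, e⟩ := of_fix h (s := s) (hs ▸ fix_of h a)
    exact (algebraMap K L).injective (e.trans hs) ▸ hb

end Qu

/-- **QUO** -/
theorem quo : QUO := fun d K L S _ _ _ _ _ _ _ _ c q f G A hK h => by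
  refine ⟨Qu.im q G, Qu.gq hK h, ?_, fun _ => id, fun g hg =>
    let ⟨σ, a⟩ := Qu.aut h hg; ⟨σ, ⟨g, hg, a⟩, a⟩⟩
  rintro rfl
  have := h.sm
  refine .of_equiv (AlgEquiv.ofInjective q ((RingHom.injective_iff_ker_eq_bot q).2 ?_))
  rw [h.ker, range_eq_empty, Ideal.span_empty]

end Vale.Agent.P283R
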