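import Vale.Agent.P283R.Tp.St
import Vale.Agent.P287D.Cb.Row

/-!
# P283R: log discrepancies along a finite extension
-/

noncomputable section

namespace Vale.Agent.P283R

open Vale.Agent.P287D Vale.Agent.P287D.Cb

theorem Frm.ind {F : Type} [Field F] [Algebra ℂ F] {N : ℕ} {y : Fin N → F} (h : Frm y) :
    AlgebraicIndependent ℂ y :=
  let ⟨_, hD⟩ := h
  (jac_ne_iff hD y).1 (jac_self hD ▸ one_ne_zero)

theorem frm_of {F : Type} [Field F] [Algebra ℂ F] {N : ℕ} {y : Fin N → F} (hF : FF F N)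
    (h : AlgebraicIndependent ℂ y) : Frm y := fr_of hF h

theorem Frm.ff {F : Type} [Field F] [Algebra ℂ F] {N : ℕ} {y : Fin N → F} (h : Frm y) : FF F N :=
  let ⟨_, hD⟩ := h
  ff_of hD

/-- **RAM** -/
theorem ram : RAM := fun _ _ _ _ _ _ _ ι _ hK hF hy =>
  ⟨fr_of hF (hy.ind.map' (f := ι) ι.toRingHom.injective), fun _ _ l =>
    ⟨l.ord, l.e_pos, by
      rw [add_comm, add_comm 1]
      exact hur hK hF ι.commutes l hy.ind⟩⟩

end Vale.Agent.P283R
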