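import Vale.Agent.P283R.Tp.St
import Vale.Agent.P287D.Cb.Lg

/-!
# P283R: the local equation may be taken semi-invariant
-/

open Set
open Vale.Agent.P297Z

noncomputable section

namespace Vale.Agent.P283R

open Vale.Agent.P287D

namespace SemP

variable {F k : Type} [Field F] [Algebra ℂ F] [Field k] [Algebra ℂ k] {S : Subalgebra ℂ F}
  {π : S →ₐ[ℂ] k} {a b : F} {x y : k}

/-- `x` is the residue of `a` -/
def Rs (π : S →ₐ[ℂ] k) (a : F) (x : k) : Prop :=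
  ∃ s t : S, π t ≠ 0 ∧ a = s / t ∧ x = π s / π t

theorem ne_of {t : S} (h : π t ≠ 0) : (t : F) ≠ 0 := fun e =>
  h (by rw [show t = 0 from Subtype.ext e, map_zero])

theorem Rs.uniq (h : Rs π a x) (h' : Rs π a y) : x = y := by
  obtain ⟨s, t, ht, e, rfl⟩ := h
  obtain ⟨s', t', ht', e', rfl⟩ := h'
  rw [e, div_eq_div_iff (ne_of ht) (ne_of ht')] at e'
  rw [div_eq_div_iff ht ht', ← map_mul, ← map_mul, show s * t' = s' * t from Subtype.ext e']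

theorem Rs.mul (h : Rs π a x) (h' : Rs π b y) : Rs π (a * b) (x * y) := by
  obtain ⟨s, t, ht, rfl, rfl⟩ := h
  obtain ⟨s', t', ht', rfl, rfl⟩ := h'
  refine ⟨s * s', t * t', by rw [map_mul]; exact mul_ne_zero ht ht', ?_, ?_⟩
  · rw [div_mul_div_comm]
    rfl
  · rw [div_mul_div_comm, map_mul, map_mul]

theorem Rs.add (h : Rs π a x) (h' : Rs π b y) : Rs π (a + b) (x + y) := by
  obtain ⟨s, t, ht, rfl, rfl⟩ := h
  obtain ⟨s', t', ht', rfl, rfl⟩ := h'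
  refine ⟨s * t' + t * s', t * t', by rw [map_mul]; exact mul_ne_zero ht ht', ?_, ?_⟩
  · rw [div_add_div _ _ (ne_of ht) (ne_of ht')]
    rfl
  · rw [div_add_div _ _ ht ht', map_add, map_mul, map_mul, map_mul]

theorem rs_coe (s : S) : Rs π s (π s) := ⟨s, 1, by simp, by simp, by simp⟩

theorem rs_const (c : ℂ) : Rs π (algebraMap ℂ F c) (algebraMap ℂ k c) := by
  have := rs_coe (π := π) (algebraMap ℂ S c)
  rwa [π.commutes] at this

theorem rs_sum {ι : Type} (T : Finset ι) (f : ι → F) (z : ι → k) (h : ∀ i, Rs π (f i) (z i)) :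
    Rs π (∑ i ∈ T, f i) (∑ i ∈ T, z i) := by
  classical
  induction T using Finset.induction_on with
  | empty => simpa using rs_coe (π := π) 0
  | insert i T hi ih =>
    rw [Finset.sum_insert hi, Finset.sum_insert hi]
    exact (h i).add ih

theorem Rs.act (h : Rs π a x) (σ : F ≃ₐ[ℂ] F) (hσ : ∀ s : S, ∃ s' : S, σ s = s' ∧ π s' = π s) :
    Rs π (σ a) x := by
  obtain ⟨s, t, ht, rfl, rfl⟩ := h
  obtain ⟨s', e1, e2⟩ := hσ s
  obtain ⟨t', e3, e4⟩ := hσ t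
  exact ⟨s', t', e4 ▸ ht, by rw [map_div₀, e1, e3], by rw [e2, e4]⟩

variable {p : Ideal S} {R : Pl F}

theorem ord_zero (hR : PDat S p R) {t : S} (ht : t ∉ p) : (t : F) ≠ 0 ∧ R.ord t = 0 := by
  obtain ⟨q, hq, hc, -⟩ := hR
  have h1 := (hc t).1
  have h2 : ¬ Cb.Mx R t := fun e => ht (hq ((hc t).2.2 ((Cb.rd_eq_zero h1).2 e)))
  rw [Cb.mx_iff, not_or] at h2
  exact ⟨h2.1, le_antisymm (not_lt.1 h2.2) (Pl.ord_nonneg_of_mem _ h1)⟩

theorem Rs.ord (hπ : ∀ s, π s = 0 ↔ s ∈ p) (h : Rs π a x) (hx : x ≠ 0) (hR : PDat S p R) :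
    R.ord a = 0 := by
  obtain ⟨s, t, ht, rfl, rfl⟩ := h
  have h1 := ord_zero hR (t := s) fun e => hx (by rw [(hπ s).2 e, zero_div])
  have h2 := ord_zero hR (t := t) fun e => ht ((hπ t).2 e)
  rw [Pl.ord_div _ h1.1 h2.1, h1.2, h2.2, sub_zero]

theorem Rs.ne (h : Rs π a x) (hx : x ≠ 0) : a ≠ 0 := fun e =>
  hx (h.uniq (by simpa [e] using rs_coe (π := π) 0))

/-- the conjugate of a prime divisor through `p` -/
theorem pdat_conj {G : Subgroup (F ≃ₐ[ℂ] F)} (hG : Stab G S) {σ : F ≃ₐ[ℂ] F} (hσ : σ ∈ G)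
    (hi : Inr S p σ) (hR : PDat S p R) {P : Pl F} (h1 : ∀ g, g ∈ P.ring ↔ σ g ∈ R.ring)
    (h2 : ∀ g, P.ord g = R.ord (σ g)) : PDat S p P := by
  obtain ⟨q, hq, hc, hl⟩ := hR
  let f : S →+* S := (σ.toAlgHom.toRingHom.comp S.val.toRingHom).codRestrict S
    fun a => hG σ hσ a a.2
  have hf : ∀ a : S, (f a : F) = σ a := fun _ => rfl
  refine ⟨q.comap f, fun a ha => ?_, fun a => ?_, fun a ha => ?_⟩
  · obtain ⟨b, hb, e⟩ := hi a
    have : a = f a - b := Subtype.ext (by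
      rw [Subalgebra.coe_sub, hf, ← e, sub_sub_cancel])
    rw [this]
    exact sub_mem (hq ha) hb
  · have m : (a : F) ∈ P.ring := (h1 _).2 (hc (f a)).1
    refine ⟨m, ?_⟩
    rw [Ideal.mem_comap, (hc (f a)).2, Cb.rd_eq_zero m, Cb.rd_eq_zero (hc (f a)).1, Cb.mx_iff,
      Cb.mx_iff, hf, h2, map_eq_zero_iff σ σ.injective]
  · obtain ⟨s, t, ht, e⟩ := hl _ ((h1 a).1 ha)
    refine ⟨⟨σ⁻¹ s, hG _ (inv_mem hσ) _ s.2⟩, ⟨σ⁻¹ t, hG _ (inv_mem hσ) _ t.2⟩, fun m => ht ?_, ?_⟩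
    · have : f ⟨σ⁻¹ t, hG _ (inv_mem hσ) _ t.2⟩ = t := Subtype.ext (σ.apply_symm_apply _)
      exact this ▸ Ideal.mem_comap.1 m
    · rw [← map_div₀, ← e]
      exact (σ.symm_apply_apply a).symm

theorem mem_range {n : ℕ} (hn : 0 < n) (h : x ^ n = 1) : ∃ c, algebraMap ℂ k c = x := by
  have hi : IsIntegral ℂ x := IsIntegral.of_pow hn (h ▸ isIntegral_one)
  exact minpoly.mem_range_of_degree_eq_one ℂ x
    (IsAlgClosed.degree_eq_one_of_irreducible ℂ (minpoly.irreducible hi))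

theorem exists_pi (T : Type) [CommRing T] [Algebra ℂ T] (q : Ideal T) [q.IsPrime] :
    ∃ (k : Type) (_ : Field k) (_ : Algebra ℂ k) (π : T →ₐ[ℂ] k), ∀ s, π s = 0 ↔ s ∈ q :=
  ⟨q.ResidueField, inferInstance, inferInstance, IsScalarTower.toAlgHom ℂ T _, fun _ =>
    Ideal.algebraMap_residueField_eq_zero⟩

/-- averaging -/
theorem avg {A : Subgroup (F ≃ₐ[ℂ] F)} [Finite A] (hA : Stab A S) {h : F} (h0 : h ≠ 0)
    (hS : h ∈ S) (hσ : ∀ σ ∈ A, ∀ s : S, ∃ s' : S, σ s = s' ∧ π s' = π s)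
    (hu : ∀ σ ∈ A, ∃ x, Rs π (σ h / h) x) :
    ∃ h' ∈ S, Eig A h' ∧ ∃ x, x ≠ 0 ∧ Rs π (h' / h) x := by
  have := Fintype.ofFinite A
  choose χ hχ using fun σ : A => hu σ σ.2
  have m : ∀ σ τ : A, χ (σ * τ) = χ σ * χ τ := fun σ τ => by
    refine (hχ _).uniq ?_
    have := (hχ σ).mul ((hχ τ).act σ (hσ σ σ.2))
    rwa [map_div₀, mul_comm, div_mul_div_cancel₀ ((map_ne_zero _).2 h0)] at this
  have o : χ 1 = 1 := (hχ _).uniq (by simpa [h0] using rs_coe (π := π) 1)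
  let χ' : A →* k := ⟨⟨χ, o⟩, m⟩
  choose c hc using fun σ : A => mem_range (x := χ σ) Fintype.card_pos
    (by rw [show χ σ = χ' σ from rfl, ← map_pow, pow_card_eq_one, map_one])
  have c0 : ∀ σ, χ σ ≠ 0 := fun σ => (Group.isUnit σ).map χ' |>.ne_zero
  have c1 : ∀ σ, c σ ≠ 0 := fun σ e => c0 σ (by rw [← hc, e, map_zero])
  have cm : ∀ σ τ, c (σ * τ) = c σ * c τ := fun σ τ => (algebraMap ℂ k).injective (by
    rw [map_mul, hc, hc, hc, m])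
  refine ⟨∑ σ : A, (c σ)⁻¹ • (σ : F ≃ₐ[ℂ] F) h,
    sum_mem fun σ _ => S.smul_mem (hA σ σ.2 h hS) _, fun τ hτ => ⟨c ⟨τ, hτ⟩, ?_⟩,
    ∑ σ : A, algebraMap ℂ k (c σ)⁻¹ * χ σ, ?_, ?_⟩
  · rw [map_sum, ← Equiv.sum_comp (Equiv.mulLeft (⟨τ, hτ⟩ : A))
      fun σ : A => (c σ)⁻¹ • (σ : F ≃ₐ[ℂ] F) h, Finset.smul_sum]
    refine Finset.sum_congr rfl fun σ _ => ?_
    rw [Equiv.coe_mulLeft, cm, smul_smul, mul_inv, mul_inv_cancel_left₀ (c1 _), map_smul]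
    rfl
  · have : ∀ σ : A, algebraMap ℂ k (c σ)⁻¹ * χ σ = 1 := fun σ => by
      rw [map_inv₀, hc, inv_mul_cancel₀ (c0 σ)]
    rw [Finset.sum_congr rfl fun σ _ => this σ, Finset.sum_const, nsmul_one,
      ← map_natCast (algebraMap ℂ k), map_ne_zero, Finset.card_univ]
    exact Nat.cast_ne_zero.2 Fintype.card_ne_zero
  · rw [Finset.sum_div]
    refine rs_sum _ _ _ fun σ => ?_
    rw [Algebra.smul_def, mul_div_assoc]
    exact (rs_const _).mul (hχ σ)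

end SemP

open SemP in
/-- **SEM** -/
theorem sem_of (hK : KAP) (hH : HRT) : SEM := by
  intro N Q F _ _ S p A y m g h hP hp hI ⟨⟨s, t, ht, e⟩, h0, hE⟩
  have := hP.fin
  obtain ⟨k, _, _, π, hπ⟩ := exists_pi S p
  have s0 : (s : F) ≠ 0 := fun z => h0 (by rw [e, z, zero_div])
  have hs : ∀ R, PDat S p R → (1 - ld y m g R) * Q = R.ord s := fun R hR => by
    rw [hE R hR, e, Pl.ord_div _ s0 (ord_zero hR ht).1, (ord_zero hR ht).2, sub_zero]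
  obtain ⟨D, hD⟩ := hP.fr
  obtain ⟨h', m', e', x, x0, hx⟩ := avg (π := π) hP.stab s0 s.2 (fun σ hσ a => by
    obtain ⟨b, hb, z⟩ := hI σ hσ a
    exact ⟨a + b, by rw [Subalgebra.coe_add, ← z, add_sub_cancel],
      by rw [map_add, (hπ b).2 hb, add_zero]⟩) fun σ hσ => by
    obtain ⟨a, b, hb, z⟩ := (hH N F S hP.aff hP.nor).2.2.1 p hp (σ s / s) fun R hR => by
      obtain ⟨P, h1, h2, h3⟩ := (hK N F y y D D hD hD).2.2 σ R
      have h4 := hs P (pdat_conj hP.stab hσ (hI σ hσ) hR h1 h2)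
      have h5 : ld y m g P = ld y m g R := by
        rw [ld, ld, h3, h2, hP.fg σ hσ, funext fun i => hP.fy i σ hσ]
      rw [h5, hs R hR, h2, Int.cast_inj] at h4
      refine Cb.mem_ord ?_
      rw [Pl.ord_div _ ((map_ne_zero _).2 s0) s0, h4, sub_self]
    exact ⟨_, a, b, fun w => hb ((hπ b).1 w), z, rfl⟩
  have n0 : h' ≠ 0 := fun z => hx.ne x0 (by rw [z, zero_div])
  refine ⟨h', ⟨⟨⟨h', m'⟩, 1, (Ideal.ne_top_iff_one p).1 hp.ne_top, by simp⟩, n0, fun R hR => ?_⟩,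
    e', m'⟩
  have := hx.ord hπ x0 hR
  rw [Pl.ord_div _ n0 s0, sub_eq_zero] at this
  rw [hs R hR, this]

end Vale.Agent.P283R
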