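import Vale.Agent.P283R.Tp.St
import Vale.Agent.P287D.Cb.Kap
import Vale.Agent.P287D.Pb.Up

/-!
# P283R: the top of the chain, descent along the quotient map
-/

open Set
open Vale.Agent.P297Z

noncomputable section

namespace Vale.Agent.P283R

open Vale.Agent.P287D

namespace Tq

section

variable {K L : Type} [Field K] [Algebra ℂ K] [Field L] [Algebra ℂ L]

theorem rd0 {P : Pl K} {f : K} (h : f ∈ P.ring) : P.rd f = 0 ↔ f = 0 ∨ 0 < P.ord f := by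
  rw [show P.rd f = IsLocalRing.residue P.ring ⟨f, h⟩ from dif_pos h]
  exact (IsLocalRing.residue_eq_zero_iff _).trans (Pl.mem_maximalIdeal_iff P.toPlace ⟨f, h⟩)

theorem rd_lies {φ : K →+* L} {R : Pl L} {P : Pl K} (h : Lies φ R P) {a : K} (ha : a ∈ P.ring) :
    R.rd (φ a) = 0 ↔ P.rd a = 0 := by
  rw [rd0 ha, rd0 ((h a).1 ha), h.ord_pos_iff, map_eq_zero]

theorem exists_cen {S : Subalgebra ℂ L} {R : Pl L} (h : ∀ s ∈ S, s ∈ R.ring) :
    ∃ p : Ideal S, Cen S p R := by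
  let f : S →+* R.ring := (S.val.toRingHom).codRestrict R.ring fun s => h s s.2
  refine ⟨(IsLocalRing.maximalIdeal R.ring).comap f, fun a => ⟨h a a.2, ?_⟩⟩
  rw [show R.rd a = IsLocalRing.residue R.ring ⟨a, h a a.2⟩ from dif_pos (h a a.2)]
  exact (IsLocalRing.residue_eq_zero_iff (R := R.ring) ⟨a, h a a.2⟩).symm

variable [Algebra K L]

/-- the points of `Spec S` whose images pass through `χ` -/
def W (S : Subalgebra ℂ L) (A : Subalgebra ℂ K) (χ : A →ₐ[ℂ] ℂ) : Set (Ideal S) :=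
  {p | ∀ (a : A) (s : S), algebraMap K L a = s → s ∈ p → χ a = 0}

variable {d : ℕ} {G : Subgroup (L ≃ₐ[ℂ] L)} {S : Subalgebra ℂ L} {A : Subalgebra ℂ K}
  {χ : A →ₐ[ℂ] ℂ}

theorem W.mono {p q : Ideal S} (h : q ∈ W S A χ) (e : p ≤ q) : p ∈ W S A χ :=
  fun a s has hs => h a s has (e hs)

theorem thr (hG : Gq d G S A) {p : Ideal S} (hp : p ∈ W S A χ) {R : Pl L} {P : Pl K}
    (hR : Cen S p R) (h : Lies (algebraMap K L) R P) : Thr A χ P := by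
  have e : ∀ a ∈ A, a ∈ P.ring := fun a ha => (h a).2 (hR ⟨_, (hG.mem a).1 ha⟩).1
  exact ⟨e, fun a ha => hp a ⟨_, (hG.mem a).1 a.2⟩ rfl
    ((hR ⟨_, (hG.mem a).1 a.2⟩).2.2 ((rd_lies h (e a a.2)).2 ha))⟩

theorem thp {R : Pl L} {P : Pl K} (hP : Thr A χ P) (h : Lies (algebraMap K L) R P)
    (hS : ∀ s ∈ S, s ∈ R.ring) : Thp S (W S A χ) R := by
  obtain ⟨p, hp⟩ := exists_cen hS
  refine ⟨hS, p, fun a s e hs => hP.2 a ((rd_lies h (hP.1 a a.2)).1 ?_), fun a ha => (hp a).2.2 ha⟩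
  rw [e]
  exact (hp s).2.1 hs

variable [IsScalarTower ℂ K L]

theorem ld_up (hram : RAM) (hK : FF K d) (hL : FF L d) {y : Fin d → K} (hy : Frm y)
    (hc : cn K d = kap y) (m : ℕ) (g : K) {R : Pl L} {P : Pl K} (h : Lies (algebraMap K L) R P) :
    ld (fun i => algebraMap K L (y i)) m (algebraMap K L g) R =
      R.ord (algebraMap K L P.t) * (1 + dsc d ((m : ℝ)⁻¹ • dv g) P) := by
  obtain ⟨h1, -, h3⟩ := (hram d K L (IsScalarTower.toAlgHom ℂ K L) y hK hL hy).2 R P h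
  have e1 : R.ord (algebraMap K L g) = R.ord (algebraMap K L P.t) * P.ord g := h1 g
  have e3 : 1 + kap (fun i => algebraMap K L (y i)) R =
    R.ord (algebraMap K L P.t) * (1 + kap y P) := h3
  simp only [ld, dsc, hc, Pi.sub_apply, Pi.smul_apply, dv, smul_eq_mul]
  rw [e3, e1]
  push_cast
  ring

theorem pr (hram : RAM) (hK : FF K d) (hG : Gq d G S A) {y : Fin d → K} (hy : Frm y) {m : ℕ}
    {g : K} (hm : 0 < m) (hg : g ≠ 0) :
    Pr d G S (fun i => algebraMap K L (y i)) m (algebraMap K L g) :=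
  ⟨hG.aff, hG.nor, hG.fin, hG.stab, fun _ => (hG.fix _).2 ⟨_, rfl⟩,
    (hram d K L (IsScalarTower.toAlgHom ℂ K L) y hK hG.aff.ff hy).1, hm,
    (map_ne_zero _).2 hg, (hG.fix _).2 ⟨_, rfl⟩⟩

theorem hyp (hram : RAM) (hK : FF K d) (hG : Gq d G S A) {y : Fin d → K} (hy : Frm y)
    (hc : cn K d = kap y) {m : ℕ} {g : K} {ε : ℝ} (hε : 0 < ε)
    (h : ∀ P, Thr A χ P → ε ≤ 1 + dsc d ((m : ℝ)⁻¹ • dv g) P) {p : Ideal S} (hp : p ∈ W S A χ) :
    Hyp ε G S p (fun i => algebraMap K L (y i)) m (algebraMap K L g) := by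
  intro R hR e he hd
  obtain ⟨P, hP⟩ := Pb.down hK hG.aff.ff R
  have h1 := hd _ ((map_ne_zero _).2 (Pb.t_ne P)) ((hG.fix _).2 ⟨P.t, rfl⟩)
  have h2 : (e : ℝ) ≤ R.ord (algebraMap K L P.t) := by exact_mod_cast Int.le_of_dvd hP.e_pos h1
  have h3 := h P (thr hG hp hR hP)
  rw [ld_up hram hK hG.aff.ff hy hc m g hP, mul_comm]
  exact mul_le_mul h2 h3 hε.le ((Nat.cast_nonneg e).trans h2)

theorem ld_pos (hram : RAM) (hK : FF K d) (hG : Gq d G S A) {y : Fin d → K} (hy : Frm y)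
    (hc : cn K d = kap y) {m : ℕ} {g : K} {ε : ℝ} (hε : 0 < ε)
    (h : ∀ P, Thr A χ P → ε ≤ 1 + dsc d ((m : ℝ)⁻¹ • dv g) P) {p : Ideal S} (hp : p ∈ W S A χ)
    (R : Pl L) (hR : PDat S p R) :
    0 < ld (fun i => algebraMap K L (y i)) m (algebraMap K L g) R := by
  obtain ⟨q, hq, hR, -⟩ := hR
  have := hyp hram hK hG hy hc hε h (W.mono hp hq) R hR 1 one_pos fun _ _ _ => by simp
  simp only [Nat.cast_one, mul_one] at this
  exact hε.trans_le this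

/-- along the prime divisors the map is unramified -/
theorem ld_pd (hram : RAM) (hfre : FRE) (hK : FF K d) (hG : Gq d G S A) {y : Fin d → K}
    (hy : Frm y) (hc : cn K d = kap y) (m : ℕ) (g : K) {p : Ideal S} (hp : p ∈ W S A χ)
    {R : Pl L} (hR : PDat S p R) : ∃ P, Lies (algebraMap K L) R P ∧ Thr A χ P ∧ Prm A P ∧
      R.ord (algebraMap K L P.t) = 1 ∧ 1 - ld (fun i => algebraMap K L (y i)) m
        (algebraMap K L g) R = -dsc d ((m : ℝ)⁻¹ • dv g) P := by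
  obtain ⟨q, hq, hR, hl⟩ := hR
  obtain ⟨P, hP⟩ := Pb.down hK hG.aff.ff R
  obtain ⟨h1, h2⟩ := (hfre d K L G S A hG).1 R P ⟨q, hR, hl⟩ hP
  refine ⟨P, hP, thr hG (W.mono hp hq) hR hP, h1, h2, ?_⟩
  rw [ld_up hram hK hG.aff.ff hy hc m g hP, h2]
  push_cast
  ring

/-- norm, trace, Bertini, descent -/
theorem core (hram : RAM) (hnt : NT) (hone : ONE) (hfre : FRE) (hK : FF K d) (hG : Gq d G S A)
    {y : Fin d → K} (hy : Frm y) (hc : cn K d = kap y) {m : ℕ} {g : K} (hm : 0 < m) (hg : g ≠ 0)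
    {J n : ℕ} (hn : 2 ≤ n) (h : ∀ p ∈ W S A χ, p.IsPrime → ∃ B, Idx J G B S p ∧
      Sol n B S p (PDat S p) (fun i => algebraMap K L (y i)) m (algebraMap K L g)) :
    ∃ φ : K, φ ≠ 0 ∧ ∀ P, Thr A χ P →
      (Prm A P → (m : ℝ)⁻¹ * dv g P ≤ ((n * J.factorial : ℕ) : ℝ)⁻¹ * dv φ P) ∧
        -1 < dsc d (((n * J.factorial : ℕ) : ℝ)⁻¹ • dv φ) P := by
  have hP := pr hram hK hG hy hm hg
  obtain ⟨φ, φ0, hφ, H⟩ := hone d (n * J.factorial) L G S (W S A χ) _ m _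
    (hn.trans (Nat.le_mul_of_pos_right _ J.factorial_pos)) hP fun p hp ⟨q, hq, e⟩ => by
      obtain ⟨B, hB, hs⟩ := h p (W.mono hq e) hp
      exact hnt d J n L G B S p _ m _ (by omega) hP hp hB hs
  obtain ⟨ψ, rfl⟩ := (hG.fix φ).1 hφ
  refine ⟨ψ, fun e => φ0 (by rw [e, map_zero]), fun P hP => ?_⟩
  obtain ⟨R, hR⟩ := Pb.up_alg hG.aff.ff P
  obtain ⟨h1, h2⟩ := (hfre d K L G S A hG).2.1 R P hR hP.1
  obtain ⟨h3, h4⟩ := H R (thp hP hR h1)
  have e0 : (0 : ℝ) < R.ord (algebraMap K L P.t) := by exact_mod_cast hR.e_pos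
  refine ⟨fun hp => ?_, ?_⟩
  · have h5 := h3 (h2 hp)
    rw [hR.ord g, hR.ord ψ, Int.cast_mul, Int.cast_mul, mul_div_assoc, mul_div_assoc] at h5
    have h6 := le_of_mul_le_mul_left h5 e0
    simpa only [dv, div_eq_inv_mul] using h6
  · rw [ld_up hram hK hG.aff.ff hy hc _ ψ hR] at h4
    have := (mul_pos_iff_of_pos_left e0).1 h4
    linarith

end

end Tq

open Tq in
theorem top0 : TOP0 := by
  intro hram hufd ha hnt hone hquo hfre d Q hd hQ ε hε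
  obtain ⟨J, n₀, hn₀, ha⟩ := ha d Q ε hQ hε
  have hn : 2 ≤ 2 * (n₀ * Q) := Nat.le_mul_of_pos_right _ (Nat.mul_pos hn₀ hQ)
  refine ⟨2 * (n₀ * Q) * J.factorial, Nat.mul_pos (by omega) J.factorial_pos, ?_⟩
  intro K L S _ _ _ _ _ _ _ _ c q f G A χ m g hc hK hq hm hg h1 h2
  obtain ⟨G₀, hG, hs, -⟩ := hquo d K L S c q f G A hK hq
  obtain ⟨y, D, hy, hcn⟩ := Cb.exists_cn hK
  have hP := pr hram hK hG ⟨D, hy⟩ hm hg
  refine core hram hnt hone hfre hK hG ⟨D, hy⟩ hcn hm hg hn fun p hp pp => ?_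
  obtain ⟨h, hh⟩ := (hufd d Q L q.range p _ m (algebraMap K L g) hG.aff (hs hc) pp hP.fr).2
    fun R hR => by
      obtain ⟨P, -, e1, e2, -, e3⟩ := ld_pd hram hfre hK hG ⟨D, hy⟩ hcn m g hp hR
      obtain ⟨k, hk⟩ := h2 P e1 e2
      exact ⟨k, by rw [e3]; linarith⟩
  exact ha _ (by omega) ⟨2 * Q, by ring⟩ ⟨2 * n₀, by ring⟩ L G₀ q.range p _ m _ h hP (hs hc) pp hh
    (hyp hram hK hG ⟨D, hy⟩ hcn hε h1 hp)

end Vale.Agent.P283R
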