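import Vale.Agent.P283R.Tp.St
import Vale.Agent.P287D.On.Val
import Vale.Agent.P287D.Cb.Fr
import Vale.Agent.P287D.Pb.Bas
import Vale.Agent.P299.R.Smooth

/-!
# P283R: local equations on smooth varieties (**UFD**)
-/

open Set
open Vale.Agent.P287D Vale.Agent.P297Z
open Vale.Agent.P285N.Brep (jac Fr)

noncomputable section

namespace Vale.Agent.P283R

namespace Uf

variable {F O : Type} [Field F] [Algebra ℂ F] {N : ℕ} {S : Subalgebra ℂ F} {p q : Ideal S}
  {R R' : Pl F} [CommRing O] {j : O →+* F} {π : O}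

theorem ne_of {t : S} (h : t ∉ p) : (t : F) ≠ 0 := fun e =>
  h (by rw [show t = 0 from Subtype.ext e]; exact zero_mem _)

theorem cen_ord (h : Cen S q R) {t : S} (ht : t ∉ q) : R.ord (t : F) = 0 := by
  have a := Pl.ord_nonneg_of_mem _ (h t).1
  have b : ¬ 0 < R.ord (t : F) := fun e =>
    ht ((h t).2.2 ((On.rd_zero_iff R (h t).1).2 (Or.inr e)))
  omega

theorem cen_lo (h : Cen S q R) {a : F} (ha : a ∈ Lo S q) : a ∈ R.ring := by
  obtain ⟨s, t, ht, rfl⟩ := ha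
  rw [div_eq_mul_inv]
  exact mul_mem (h s).1 ((Pl.ord_eq_zero_iff _ (ne_of ht)).1 (cen_ord h ht)).2

theorem lo_mono (h : q ≤ p) {a : F} (ha : a ∈ Lo S p) : a ∈ Lo S q :=
  let ⟨s, t, ht, e⟩ := ha
  ⟨s, t, fun n => ht (h n), e⟩

theorem pd_lo (h : PDat S p R) {a : F} (ha : a ∈ Lo S p) : a ∈ R.ring :=
  let ⟨_, k1, k2, _⟩ := h
  cen_lo k2 (lo_mono k1 ha)

/-- `O` is the local ring at `p` -/
structure Is (S : Subalgebra ℂ F) (p : Ideal S) (j : O →+* F) : Prop where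
  pri : p.IsPrime
  inj : Function.Injective j
  rng : ∀ a, a ∈ Lo S p ↔ ∃ b, j b = a

theorem Is.mem (h : Is S p j) (b : O) : j b ∈ Lo S p := (h.rng _).2 ⟨b, rfl⟩

theorem Is.one (h : Is S p j) : (1 : S) ∉ p := (Ideal.ne_top_iff_one p).1 h.pri.ne_top

theorem Is.ex (h : Is S p j) (s : S) : ∃ b, j b = s := (h.rng _).1 ⟨s, 1, h.one, by simp⟩

theorem Is.unit (h : Is S p j) {t : S} (ht : t ∉ p) {b : O} (e : j b = t) : IsUnit b := by
  obtain ⟨c, hc⟩ := (h.rng _).1 ⟨1, t, ht, rfl⟩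
  refine IsUnit.of_mul_eq_one c (h.inj ?_)
  rw [map_mul, e, hc, map_one, OneMemClass.coe_one, mul_one_div_cancel (ne_of ht)]

theorem Is.ne (h : Is S p j) {b : O} (e : b ≠ 0) : j b ≠ 0 := (map_ne_zero_iff j h.inj).2 e

theorem Is.nn (h : Is S p j) (hR : PDat S p R) (b : O) : 0 ≤ R.ord (j b) :=
  Pl.ord_nonneg_of_mem _ (pd_lo hR (h.mem b))

theorem Is.ord_unit (h : Is S p j) (hR : PDat S p R) {b : O} (e : IsUnit b) : R.ord (j b) = 0 := by
  obtain ⟨c, hc⟩ := e.exists_right_inv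
  refine Pl.ord_unit _ (pd_lo hR (h.mem b)) ?_
  rw [inv_eq_of_mul_eq_one_right (show j b * j c = 1 by rw [← map_mul, hc, map_one])]
  exact pd_lo hR (h.mem c)

/-- the place of a prime element -/
theorem Is.pl [IsDomain O] [WfDvdMonoid O] (h : Is S p j) (hS : Aff N S) (hp : Prime π) :
    ∃ R, PDat S p R ∧ R.ord (j π) = 1 ∧ ∀ R', PDat S p R' → 0 < R'.ord (j π) → R' = R := by
  choose i hi using h.ex
  let ι : S →+* O :=
    { toFun := i
      map_one' := h.inj (by rw [hi, map_one]; rfl)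
      map_mul' := fun a b => h.inj (by rw [map_mul, hi, hi, hi]; rfl)
      map_zero' := h.inj (by rw [hi, map_zero]; rfl)
      map_add' := fun a b => h.inj (by rw [map_add, hi, hi, hi]; rfl) }
  have h1 : (Ideal.span {π}).IsPrime := (Ideal.span_singleton_prime hp.ne_zero).2 hp
  obtain ⟨q, hq, mq⟩ : ∃ q : Ideal S, q.IsPrime ∧ ∀ a, a ∈ q ↔ π ∣ i a :=
    ⟨(Ideal.span {π}).comap ι, inferInstance, fun a => Ideal.mem_span_singleton⟩
  have p0 := h.ne hp.ne_zero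
  have nd : ∀ t ∉ p, ¬ π ∣ i t := fun t ht n =>
    hp.not_isUnit (isUnit_of_dvd_unit n (h.unit ht (hi t)))
  have le : q ≤ p := fun a ha => by_contra fun n => nd a n ((mq a).1 ha)
  have fr : ∀ a : O, ∃ u v : S, v ∉ p ∧ a * i v = i u := fun a => by
    obtain ⟨u, v, hv, e⟩ := h.mem a
    exact ⟨u, v, hv, h.inj (by rw [map_mul, hi, hi, e, div_mul_cancel₀ _ (ne_of hv)])⟩
  obtain ⟨s, t, ht, e⟩ := fr π
  have hs : s ∈ q := (mq s).2 ⟨i t, e.symm⟩
  have e' : j π * t = s := by rw [← hi, ← hi, ← e, map_mul]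
  have s0 : (s : F) ≠ 0 := e' ▸ mul_ne_zero p0 (ne_of ht)
  obtain ⟨R, k1, k2⟩ := On.ctr hS.ff hS.fg q fun n =>
    s0 (by rw [n] at hs; exact congrArg Subtype.val (Ideal.mem_bot.1 hs))
  have ce : Cen S q R := fun a => ⟨k1 a a.2, (k2 a).trans (On.rd_zero_iff R (k1 a a.2)).symm⟩
  have z : ∀ a : O, ¬ π ∣ a → ∃ u v : S, u ∉ q ∧ v ∉ q ∧ j a = u / v := fun a ha => by
    obtain ⟨u, v, hv, w⟩ := fr a
    refine ⟨u, v, fun n => ?_, fun n => hv (le n), ?_⟩
    · exact (hp.dvd_or_dvd (w ▸ (mq u).1 n)).elim ha (nd v hv)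
    · rw [eq_div_iff (ne_of hv), ← hi, ← hi, ← w, map_mul]
  have dec : ∀ a : F, a ≠ 0 → ∃ (k : ℤ) (u v : S), u ∉ q ∧ v ∉ q ∧ a = j π ^ k * (u / v) :=
    fun a a0 => by
      obtain ⟨b, c, rfl⟩ := hS.fr a
      have one : ∀ b : S, (b : F) ≠ 0 →
          ∃ (k : ℕ) (u v : S), u ∉ q ∧ v ∉ q ∧ (b : F) = j π ^ k * (u / v) := fun b b0 => by
        obtain ⟨b', e1, e2⟩ := (FiniteMultiplicity.of_prime_left hp (b := i b)
          fun n => b0 (by rw [← hi, n, map_zero])).exists_eq_pow_mul_and_not_dvd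
        obtain ⟨u, v, hu, hv, w⟩ := z b' e2
        exact ⟨multiplicity π (i b), u, v, hu, hv, by rw [← w, ← map_pow, ← map_mul, ← e1, hi]⟩
      obtain ⟨k, u, v, hu, hv, w⟩ := one b (div_ne_zero_iff.1 a0).1
      obtain ⟨k', u', v', hu', hv', w'⟩ := one c (div_ne_zero_iff.1 a0).2
      refine ⟨k - k', u * v', v * u', fun n => (hq.mem_or_mem n).elim hu hv',
        fun n => (hq.mem_or_mem n).elim hv hu', ?_⟩
      have := ne_of hv
      have := ne_of hu'
      have := ne_of hv'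
      rw [w, w', zpow_sub₀ p0, zpow_natCast, zpow_natCast, MulMemClass.coe_mul,
        MulMemClass.coe_mul]
      field_simp
  have od : ∀ (k : ℤ) (u v : S), u ∉ q → v ∉ q →
      R.ord (j π ^ k * (u / v)) = k * R.ord (j π) := fun k u v hu hv => by
    rw [Pl.ord_mul _ (zpow_ne_zero _ p0) (div_ne_zero (ne_of hu) (ne_of hv)), Pl.ord_zpow,
      Pl.ord_div _ (ne_of hu) (ne_of hv), cen_ord ce hu, cen_ord ce hv, sub_self, add_zero]
  have o1 : R.ord (j π) = 1 := by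
    have pos := ((k2 s).1 hs).resolve_left s0
    rw [← e', Pl.ord_mul _ p0 (ne_of ht), cen_ord ce fun n => ht (le n), add_zero] at pos
    obtain ⟨x, x0, hx⟩ := Pl.exists_ord_eq_one R.toPlace
    obtain ⟨k, u, v, hu, hv, rfl⟩ := dec x x0
    rw [od k u v hu hv] at hx
    exact Int.eq_one_of_mul_eq_one_left pos.le hx
  refine ⟨R, ⟨q, le, ce, fun a ha => ?_⟩, o1, fun R' hR' pos => ?_⟩
  · by_cases a0 : a = 0
    · exact ⟨0, 1, fun n => h.one (le n), by simp [a0]⟩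
    obtain ⟨k, u, v, hu, hv, rfl⟩ := dec a a0
    have := Pl.ord_nonneg_of_mem _ ha
    rw [od k u v hu hv, o1, mul_one] at this
    obtain ⟨k, rfl⟩ := Int.eq_ofNat_of_zero_le this
    have ht' : t ∉ q := fun n => ht (le n)
    refine ⟨s ^ k * u, t ^ k * v, fun n => (hq.mem_or_mem n).elim
      (fun n => ht' (hq.mem_of_pow_mem k n)) hv, ?_⟩
    have := ne_of hv
    have := ne_of ht
    rw [zpow_natCast, MulMemClass.coe_mul, MulMemClass.coe_mul, SubmonoidClass.coe_pow,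
      SubmonoidClass.coe_pow, ← e', mul_pow]
    field_simp
  · obtain ⟨q', l1, l2, l3⟩ := id hR'
    refine Pb.pl_ext (congrArg _ (Pl.eq_of_le' (v := R'.toPlace) (w := R.toPlace) fun a ha => ?_))
    obtain ⟨u, v, hv, rfl⟩ := l3 a ha
    refine cen_lo ce ⟨u, v, fun n => ?_, rfl⟩
    obtain ⟨c, hc⟩ := (mq v).1 n
    have c0 : c ≠ 0 := fun w => ne_of hv (by rw [← hi, hc, w, mul_zero, map_zero])
    have a1 := cen_ord l2 hv
    have a2 := h.nn hR' c
    rw [← hi, hc, map_mul, Pl.ord_mul _ p0 (h.ne c0)] at a1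
    omega

/-- effective divisors are principal -/
theorem Is.eqn [IsDomain O] [UniqueFactorizationMonoid O] (h : Is S p j) (hS : Aff N S) {z : O}
    (hz : z ≠ 0) (c : Pl F → ℕ) (hc : ∀ R, PDat S p R → R.ord (j z) = 0 → c R = 0) :
    ∃ a : O, a ≠ 0 ∧ ∀ R, PDat S p R → R.ord (j a) = c R := by
  classical
  induction z using UniqueFactorizationMonoid.induction_on_prime generalizing c with
  | h₁ => exact (hz rfl).elim
  | h₂ z hu => exact ⟨1, one_ne_zero, fun R hR => by simp [hc R hR (h.ord_unit hR hu)]⟩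
  | h₃ z π z0 hp ih =>
    obtain ⟨P, k1, k2, k3⟩ := h.pl hS hp
    have p0 := h.ne hp.ne_zero
    have oth : ∀ R, PDat S p R → R ≠ P → R.ord (j π) = 0 := fun R hR n =>
      le_antisymm (not_lt.1 fun w => n (k3 R hR w)) (h.nn hR π)
    obtain ⟨a, a0, ha⟩ := ih z0 (Function.update c P 0) fun R hR e => by
      by_cases n : R = P
      · rw [n, Function.update_self]
      · rw [Function.update_of_ne n]
        exact hc R hR (by rw [map_mul, Pl.ord_mul _ p0 (h.ne z0), oth R hR n, e, add_zero])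
    refine ⟨π ^ c P * a, mul_ne_zero (pow_ne_zero _ hp.ne_zero) a0, fun R hR => ?_⟩
    rw [map_mul, map_pow, Pl.ord_mul _ (pow_ne_zero _ p0) (h.ne a0), Pl.ord_pow, ha R hR]
    by_cases n : R = P
    · rw [n, Function.update_self, k2]
      simp
    · rw [Function.update_of_ne n, oth R hR n]
      simp

theorem exists_is (S : Subalgebra ℂ F) (p : Ideal S) [hp : p.IsPrime] :
    ∃ j : Localization.AtPrime p →+* F, Is S p j := by
  have u : ∀ t : p.primeCompl, IsUnit (S.val.toRingHom t) := fun t => (ne_of t.2).isUnit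
  refine ⟨IsLocalization.lift u, hp, ?_, fun a => ⟨?_, ?_⟩⟩
  · refine (IsLocalization.lift_injective_iff u).2 fun a b => ⟨fun e => ?_, fun e => ?_⟩
    · rw [IsLocalization.injective _ p.primeCompl_le_nonZeroDivisors e]
    · rw [show a = b from Subtype.ext e]
  · rintro ⟨s, t, ht, rfl⟩
    refine ⟨IsLocalization.mk' _ s (⟨t, ht⟩ : p.primeCompl), ?_⟩
    rw [IsLocalization.lift_mk'_spec]
    exact (mul_div_cancel₀ _ (ne_of ht)).symm
  · rintro ⟨b, rfl⟩
    obtain ⟨s, t, rfl⟩ := IsLocalization.exists_mk'_eq p.primeCompl b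
    refine ⟨s, t, t.2, ?_⟩
    rw [IsLocalization.lift_mk'_spec]
    exact (mul_div_cancel₀ _ (ne_of t.2)).symm

/-- a common denominator -/
theorem den (hS : Aff N S) {ι : Type} [Finite ι] (a : ι → F) :
    ∃ z : S, z ≠ 0 ∧ ∀ i, z * a i ∈ S := by
  classical
  have := Fintype.ofFinite ι
  have : ∀ i, ∃ t : S, t ≠ 0 ∧ t * a i ∈ S := fun i => by
    obtain ⟨s, t, e⟩ := hS.fr (a i)
    by_cases t0 : t = 0
    · exact ⟨1, one_ne_zero, by simp [e, t0]⟩
    · exact ⟨t, t0, by rw [e, mul_div_cancel₀ _ fun n => t0 (Subtype.ext n)]; exact s.2⟩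
  choose t t0 ht using this
  refine ⟨∏ i, t i, Finset.prod_ne_zero_iff.2 fun i _ => t0 i, fun i => ?_⟩
  rw [← Finset.prod_erase_mul _ _ (Finset.mem_univ i), MulMemClass.coe_mul, mul_assoc]
  exact mul_mem (Subtype.prop _) (ht i)

/-- a frame is adapted to almost all prime divisors -/
theorem kap_zero (hS : Aff N S) {y : Fin N → F} (hy : Frm y) : ∃ z : S, z ≠ 0 ∧
    ∀ (q : Ideal S) R, Cen S q R → (∀ a ∈ R.ring, a ∈ Lo S q) → R.ord (z : F) = 0 →
      kap y R = 0 := by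
  obtain ⟨D, hD⟩ := hy
  obtain ⟨T, hT⟩ := hS.fg
  obtain ⟨z, z0, hz⟩ := den hS (Sum.elim y fun x : Fin N × T => D x.1 x.2)
  refine ⟨z, z0, fun q R h1 h2 e => ?_⟩
  have z1 : (z : F) ≠ 0 := fun n => z0 (Subtype.ext n)
  have mem : ∀ a : F, z * a ∈ S → a ∈ R.ring := fun a ha => by
    rw [← inv_mul_cancel_left₀ z1 a]
    exact mul_mem ((Pl.ord_eq_zero_iff _ z1).1 e).2 (h1 ⟨_, ha⟩).1
  have dS : ∀ i, ∀ a ∈ S, D i a ∈ R.ring := fun i a ha => by
    rw [← hT] at ha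
    induction ha using Algebra.adjoin_induction with
    | mem x hx => exact mem _ (hz (Sum.inr (i, ⟨x, hx⟩)))
    | algebraMap c => rw [Derivation.map_algebraMap]; exact zero_mem _
    | add a b _ _ k k' => rw [map_add]; exact add_mem k k'
    | mul a b ha hb k k' =>
      rw [Derivation.leibniz, smul_eq_mul, smul_eq_mul]
      exact add_mem (mul_mem (h1 ⟨a, hT ▸ ha⟩).1 k') (mul_mem (h1 ⟨b, hT ▸ hb⟩).1 k)
  have ad : Ad R y D := ⟨hD, fun i => mem _ (hz (Sum.inl i)), fun i a ha => by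
    obtain ⟨s, t, ht, rfl⟩ := h2 a ha
    have ti := ((Pl.ord_eq_zero_iff _ (ne_of ht)).1 (cen_ord h1 ht)).2
    rw [Derivation.leibniz_div, smul_eq_mul, smul_eq_mul, smul_eq_mul]
    exact mul_mem (pow_mem ti 2)
      (sub_mem (mul_mem (h1 t).1 (dS i s s.2)) (mul_mem (h1 s).1 (dS i t t.2)))⟩
  rw [Cb.kap_eq ad, Cb.jac_self hD]
  simp

end Uf

open Uf

theorem ufd : UFD := fun N Q F _ _ S p y m g hS sm hp hy => by
  refine ⟨IsIntegrallyClosed.of_localization_maximal fun q _ _ =>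
    P299.Q.isIntegrallyClosed_of_smooth_of_atPrime ℂ S _ q, fun hb => ?_⟩
  obtain ⟨j, h⟩ := exists_is S p
  have := P299.R.ufd_of_smooth_of_atPrime ℂ S (Localization.AtPrime p) p
  obtain ⟨z, z0, hz⟩ := kap_zero hS hy
  obtain ⟨w, w0, hw⟩ : ∃ w : S, w ≠ 0 ∧ ∀ R, PDat S p R → R.ord (w : F) = 0 → R.ord g = 0 := by
    obtain ⟨s, t, rfl⟩ := hS.fr g
    by_cases e : (s : F) / t = 0
    · exact ⟨1, one_ne_zero, fun R _ _ => by simp [e]⟩
    obtain ⟨s0, t0⟩ := div_ne_zero_iff.1 e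
    refine ⟨s * t, fun n => mul_ne_zero s0 t0 (congrArg Subtype.val n), fun R ⟨_, _, k, _⟩ e' => ?_⟩
    have a := Pl.ord_nonneg_of_mem _ (k s).1
    have b := Pl.ord_nonneg_of_mem _ (k t).1
    rw [MulMemClass.coe_mul, Pl.ord_mul _ s0 t0] at e'
    rw [Pl.ord_div _ s0 t0]
    omega
  have z1 : (z : F) ≠ 0 := fun n => z0 (Subtype.ext n)
  have w1 : (w : F) ≠ 0 := fun n => w0 (Subtype.ext n)
  obtain ⟨v, hv⟩ := h.ex (z * w)
  choose! b hb using hb
  obtain ⟨a, a0, ha⟩ := h.eqn hS (z := v) (fun n => mul_ne_zero z1 w1 (by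
    rw [← MulMemClass.coe_mul, ← hv, n, map_zero])) b fun R hR e => by
      obtain ⟨q, -, k1, k2⟩ := id hR
      have a1 := Pl.ord_nonneg_of_mem _ (k1 z).1
      have a2 := Pl.ord_nonneg_of_mem _ (k1 w).1
      rw [hv, MulMemClass.coe_mul, Pl.ord_mul _ z1 w1] at e
      have := hb R hR
      rw [ld, hz q R k1 k2 (by omega), hw R hR (by omega)] at this
      simpa using this.symm
  exact ⟨j a, h.mem a, h.ne a0, fun R hR => by rw [hb R hR, ha R hR, Int.cast_natCast]⟩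

end Vale.Agent.P283R
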