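import Vale.Agent.P283R.Tp.St
import Vale.Agent.P287D.Gm.Ffs
import Vale.Agent.P297Z.Dim.Alg

/-!
# P283R: the row `QUO2`
-/

set_option linter.all false

open Set

noncomputable section

namespace Vale.Agent.P283R

open Vale.Agent.P287D Vale.Agent.P297Z

namespace Qw

variable {S : Type} [CommRing S] [IsDomain S] [Algebra ℂ S]

theorem trd (F : Type) [Field F] [Algebra ℂ F] [Algebra S F] [IsScalarTower ℂ S F]
    [IsFractionRing S F] : Algebra.trdeg ℂ F = Algebra.trdeg ℂ S := by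
  have := IsLocalization.isAlgebraic F (nonZeroDivisors S)
  rw [← trdeg_add_eq ℂ S (A := F), trdeg_eq_zero (R := S), add_zero]

theorem ff [Algebra.FiniteType ℂ S] {L : Type} [Field L] [Algebra ℂ L] {d c : ℕ}
    (q : S →ₐ[ℂ] L) (hL : FF L d) (fr : ∀ b : L, ∃ s t, q t ≠ 0 ∧ b = q s / q t)
    (ht : (RingHom.ker q).height = c) : FF (FractionRing S) (d + c) := by
  have : IsFractionRing q.range L := IsFractionRing.of_field _ _ fun b =>
    let ⟨s, t, _, e⟩ := fr b; ⟨⟨_, s, rfl⟩, ⟨_, t, rfl⟩, e⟩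
  have : (RingHom.ker q).IsPrime := RingHom.ker_isPrime q
  have a := Dim.height_add_td (k := ℂ) (RingHom.ker q)
  have b : Algebra.trdeg ℂ (S ⧸ RingHom.ker q) = d := by
    rw [← hL.trdeg, trd (S := q.range) L]
    exact (Ideal.quotientKerEquivRange q).trdeg_eq
  rw [Dim.trdeg_eq_td, Nat.cast_inj] at b
  rw [ht, b] at a
  have : Algebra.EssFiniteType S (FractionRing S) := .of_isLocalization _ (nonZeroDivisors S)
  have : Algebra.EssFiniteType ℂ (FractionRing S) := .comp ℂ S _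
  refine Gm.ff_of_ess ?_
  rw [trd (S := S), Dim.trdeg_eq_td, Nat.cast_inj, add_comm]
  exact_mod_cast a.symm

/-- the action on the field of fractions -/
def up : (S ≃ₐ[ℂ] S) →* (FractionRing S ≃ₐ[ℂ] FractionRing S) :=
  .mk' (fun g => IsFractionRing.algEquivOfAlgEquiv g) fun g h => AlgEquiv.ext fun x => by
    obtain ⟨s, t, -, rfl⟩ := IsFractionRing.div_surjective (A := S) x
    simp only [AlgEquiv.mul_apply, map_div₀, IsFractionRing.algEquivOfAlgEquiv_algebraMap]

theorem up_map (g : S ≃ₐ[ℂ] S) (s : S) : up g (algebraMap S _ s) = algebraMap S _ (g s) :=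
  IsFractionRing.algEquivOfAlgEquiv_algebraMap g s

end Qw

/-- **QUO2** -/
theorem quo2 : QUO2 := fun d K L S _ _ _ _ _ _ _ _ c q f G A G₀ hL h u v => by
  have := h.dom
  have := h.sm
  have := h.fin
  let ι := IsScalarTower.toAlgHom ℂ S (FractionRing S)
  have i : Function.Injective ι := IsFractionRing.injective S _
  let e := AlgEquiv.ofInjective ι i
  have k : ∀ (g : S ≃ₐ[ℂ] S) (σ : L ≃ₐ[ℂ] L), (∀ s, σ (q s) = q (g s)) → ∀ a b : ι.range,
      Qw.up g a = b → σ (q (e.symm a)) = q (e.symm b) := fun g σ w a b ab => by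
    obtain ⟨a, rfl⟩ := e.surjective a
    obtain ⟨b, rfl⟩ := e.surjective b
    rw [e.symm_apply_apply, e.symm_apply_apply, w, i ((Qw.up_map g a).symm.trans ab)]
  refine ⟨FractionRing S, inferInstance, inferInstance, G.map Qw.up, ι.range,
    q.rangeRestrict.comp e.symm.toAlgHom, fun j => e (f j), ⟨Qw.ff q hL h.frL h.ht, ?_,
    fun a => ?_⟩, .of_equiv e, .of_surjective _ (Qw.up.subgroupMap_surjective G), ?_,
    q.rangeRestrict_surjective.comp e.symm.surjective, ?_, fun σ hσ => ?_, ?_⟩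
  · rw [← Algebra.map_top]
    exact Subalgebra.FG.map _ Algebra.FiniteType.out
  · obtain ⟨s, t, -, rfl⟩ := IsFractionRing.div_surjective (A := S) a
    exact ⟨e s, e t, rfl⟩
  · rintro _ ⟨g, -, rfl⟩ _ ⟨s, rfl⟩
    exact ⟨g s, (Qw.up_map g s).symm⟩
  · rw [show range (fun j => e (f j)) = e '' range f from range_comp e f, ← Ideal.map_span,
      ← h.ker]
    ext a
    obtain ⟨a, rfl⟩ := e.surjective a
    rw [Ideal.mem_map_iff_of_surjective e e.surjective, RingHom.mem_ker, Subtype.ext_iff]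
    refine ⟨fun z => ⟨a, (congrArg q (e.symm_apply_apply a)).symm.trans z, rfl⟩, ?_⟩
    rintro ⟨b, z, w⟩
    exact (congrArg q (w ▸ e.symm_apply_apply b)).trans z
  · obtain ⟨g, a, b⟩ := u σ hσ
    exact ⟨_, ⟨g, a, rfl⟩, k g σ b⟩
  · rintro _ ⟨g, a, rfl⟩
    obtain ⟨σ, a, b⟩ := v g a
    exact ⟨σ, a, k g σ b⟩

end Vale.Agent.P283R
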