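import Vale.Agent.P283R.Tp.Top0
import Vale.Agent.P283R.Qb

/-!
# P283R: the top of the chain for complete intersections
-/

set_option linter.all false

open Set
open Vale.Agent.P297Z

noncomputable section

namespace Vale.Agent.P283R

open Vale.Agent.P287D

/-- **TOPC** -/
def TOPC (c : ℕ) : Prop := RAM → AC c → NT → ONE → QUO → QUO2 → FRE → Qb c

namespace Tq

variable {K L S : Type} [Field K] [Algebra ℂ K] [Field L] [Algebra ℂ L] [Algebra K L]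
  [CommRing S] [Algebra ℂ S] {c : ℕ} {q : S →ₐ[ℂ] L} {f : Fin c → S} {G : Subgroup (S ≃ₐ[ℂ] S)}
  {A : Subalgebra ℂ K} {χ : A →ₐ[ℂ] ℂ}

/-- the points over `χ` are conjugate -/
theorem conj (h : Quo q f G A) {y : Ideal S} (hy : y.IsPrime)
    (e : ∀ (a : A) (s : S), algebraMap K L a = q s → χ a = 0 → s ∈ y) {p : Ideal q.range}
    (hp : p ∈ W q.range A χ) : ∃ γ ∈ G, ∀ s, q.rangeRestrict s ∈ p → γ s ∈ y := by
  classical
  have := h.fin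
  have := Fintype.ofFinite G
  obtain ⟨γ, -, k⟩ := (Ideal.subset_union_prime (s := Finset.univ)
    (f := fun γ : G => y.comap γ.1) 1 1 (fun γ _ _ _ => Ideal.comap_isPrime _ _)
    (I := p.comap q.rangeRestrict)).1 fun x hx => by
      obtain ⟨a, ha, b⟩ := (h.inv _).2 ⟨∏ γ : G, γ.1 x, fun g hg => by
        rw [map_prod g]
        exact congrArg q (Fintype.prod_equiv (Equiv.mulLeft (⟨g, hg⟩ : G)) _ _ fun _ => rfl), rfl⟩
      have m : ∏ γ : G, γ.1 x ∈ p.comap q.rangeRestrict :=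
        Ideal.mem_of_dvd _ (Finset.dvd_prod_of_mem (fun γ : G => γ.1 x) (Finset.mem_univ 1)) hx
      obtain ⟨γ, -, k⟩ := Ideal.IsPrime.prod_mem_iff.1
        (e ⟨a, ha⟩ _ b (hp ⟨a, ha⟩ (q.rangeRestrict _) b m))
      exact mem_biUnion (Finset.mem_coe.2 (Finset.mem_univ γ)) k
  exact ⟨γ.1, γ.2, fun s hs => k hs⟩

variable [IsScalarTower ℂ K L]

/-- the local equation of the boundary -/
theorem eqn (hram : RAM) (hfre : FRE) {d Q : ℕ} (hK : FF K d) (h : Quo q f G A)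
    {G₀ : Subgroup (L ≃ₐ[ℂ] L)} (hG : Gq d G₀ q.range A)
    (up : ∀ g ∈ G, ∃ σ ∈ G₀, ∀ s, σ (q s) = q (g s)) {y : Fin d → K} (hy : Frm y)
    (hc : cn K d = kap y) {m : ℕ} {g : K} (k : Cut Q q A χ (-dsc d ((m : ℝ)⁻¹ • dv g)))
    {p : Ideal q.range} (hp : p ∈ W q.range A χ) (pp : p.IsPrime) :
    ∃ b, Eqn Q q.range p (fun i => algebraMap K L (y i)) m (algebraMap K L g) b := by
  obtain ⟨r, a, z, s, u, t, r0, a0, hz, e, hu, ht, eq, o⟩ := k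
  obtain ⟨γ, hγ, le⟩ := conj h hz e hp
  obtain ⟨σ, hσ, x⟩ := up γ⁻¹ (inv_mem hγ)
  have n : ∀ w ∉ z, q.rangeRestrict (γ⁻¹ w) ∉ p := fun w hw b =>
    hw (γ.apply_symm_apply w ▸ le _ b)
  have n0 : ∀ w ∉ z, q (γ⁻¹ w) ≠ 0 := fun w hw b =>
    n w hw ((Subtype.ext b : q.rangeRestrict (γ⁻¹ w) = 0) ▸ zero_mem _)
  have eq' := congrArg σ eq
  rw [map_mul, map_mul, map_pow, map_pow, x, x, x, (hG.fix _).2 ⟨a, rfl⟩ σ hσ] at eq'
  have a1 : algebraMap K L a ^ Q ≠ 0 := pow_ne_zero _ ((map_ne_zero _).2 a0)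
  have s1 : q (γ⁻¹ s) ^ r ≠ 0 := right_ne_zero_of_mul (eq' ▸ mul_ne_zero a1 (n0 t ht))
  refine ⟨q (γ⁻¹ s), ⟨q.rangeRestrict _, 1, (Ideal.ne_top_iff_one _).1 pp.ne_top,
    (div_one _).symm⟩, fun b => s1 (by rw [b, zero_pow r0.ne']), fun R hR => ?_⟩
  obtain ⟨P, l, e1, e2, e3, e4⟩ := ld_pd hram hfre hK hG hy hc m g hp hR
  obtain ⟨p', le', cen, -⟩ := hR
  have un : ∀ w ∉ z, R.ord (q (γ⁻¹ w)) = 0 := fun w hw =>
    have b := cen (q.rangeRestrict (γ⁻¹ w))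
    le_antisymm (not_lt.1 fun v => n w hw (le' (b.2.2 ((rd0 b.1).2 (.inr v)))))
      (Pl.ord_nonneg_of_mem _ b.1)
  have v := congrArg R.ord eq'
  rw [Pl.ord_mul _ a1 (n0 t ht), Pl.ord_mul _ (n0 u hu) s1, un t ht, un u hu, Pl.ord_pow,
    Pl.ord_pow, l.ord a, e3, one_mul, add_zero, zero_add] at v
  have v' : (Q : ℝ) * P.ord a = r * R.ord (q (γ⁻¹ s)) := by exact_mod_cast v
  rw [o P e1 e2, Pi.neg_apply] at v'
  rw [e4]
  exact mul_left_cancel₀ (Nat.cast_ne_zero.2 r0.ne' : (r : ℝ) ≠ 0) (by linarith)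

end Tq

open Tq in
theorem topc (c : ℕ) : TOPC c := by
  intro hram ha hnt hone hquo hquo2 hfre d Q hd hQ ε hε
  obtain ⟨J, n₀, hn₀, ha⟩ := ha d Q ε hQ hε
  have hn : 2 ≤ 2 * (n₀ * Q) := Nat.le_mul_of_pos_right _ (Nat.mul_pos hn₀ hQ)
  refine ⟨2 * (n₀ * Q) * J.factorial, Nat.mul_pos (by omega) J.factorial_pos, ?_⟩
  intro K L S _ _ _ _ _ _ _ _ q f G A χ m g hK hq hm hg h1 h2
  obtain ⟨G₀, hG, -, dn, up⟩ := hquo d K L S c q f G A hK hq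
  obtain ⟨F', _, _, G', S', π, f', hl⟩ := hquo2 d K L S c q f G A G₀ hG.aff.ff hq dn up
  obtain ⟨y, D, hy, hcn⟩ := Cb.exists_cn hK
  have hP := pr hram hK hG ⟨D, hy⟩ hm hg
  refine core hram hnt hone hfre hK hG ⟨D, hy⟩ hcn hm hg hn fun p hp pp => ?_
  obtain ⟨h, hh⟩ := eqn hram hfre hK hq hG up ⟨D, hy⟩ hcn h2 hp pp
  exact ha _ (by omega) ⟨2 * Q, by ring⟩ ⟨2 * n₀, by ring⟩ L F' G₀ q.range G' S' π f' p _ m _ h hP
    hl pp hh (fun p' e => hyp hram hK hG ⟨D, hy⟩ hcn hε h1 (W.mono hp e))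
    (ld_pos hram hK hG ⟨D, hy⟩ hcn hε h1 hp)

end Vale.Agent.P283R
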