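import Vale.Agent.P283R.Tp.St
import Vale.Agent.P283R.Ty.Sm
import Vale.Agent.P287D.Cb.Fr

/-!
# P283R, row DER: the frame of a point
-/

open Set IsLocalRing
open Vale.Agent.P285N.Brep (jac Fr)

noncomputable section

namespace Vale.Agent.P283R

open Vale.Agent.P287D

namespace Der

section gen

variable {k O : Type} [Field k] [CommRing O] [Algebra k O] {ι : Type}

theorem der_of_span {y : ι → O}
    (hs : Submodule.span O (range fun j => KaehlerDifferential.D k O (y j)) = ⊤)
    {M : Type*} [AddCommGroup M] [Module O M] [Module k M] [IsScalarTower k O M]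
    (δ : Derivation k O M) (a : O) : δ a ∈ Submodule.span O (range fun j => δ (y j)) := by
  have h1 : Submodule.span O (range fun j => KaehlerDifferential.D k O (y j)) ≤
      (Submodule.span O (range fun j => δ (y j))).comap δ.liftKaehlerDifferential := by
    rw [Submodule.span_le]
    rintro _ ⟨j, rfl⟩
    simpa using Submodule.subset_span (R := O) (s := range fun j => δ (y j)) ⟨j, rfl⟩
  rw [hs] at h1
  simpa using h1 (Submodule.mem_top (x := KaehlerDifferential.D k O a))

theorem fin_of_span [Algebra.EssFiniteType k O] {y : ι → O}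
    (hs : Submodule.span O (range fun j => KaehlerDifferential.D k O (y j)) = ⊤)
    (F : Type) [Field F] [Algebra O F] [Algebra k F] [IsScalarTower k O F] [IsFractionRing O F] :
    FiniteDimensional (IntermediateField.adjoin k (range fun j => algebraMap O F (y j))) F := by
  set K := IntermediateField.adjoin k (range fun j => algebraMap O F (y j)) with hK
  have : SMulCommClass K O F := ⟨fun a b c => by
    simp only [Algebra.smul_def]
    ring⟩
  have h0 : ∀ a : O, KaehlerDifferential.D K F (algebraMap O F a) = 0 := by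
    intro a
    have h := der_of_span hs (((KaehlerDifferential.D K F).restrictScalars k).compAlgebraMap O) a
    refine (Submodule.mem_bot O).1 ((Submodule.span_le.2 ?_) h)
    rintro _ ⟨j, rfl⟩
    exact (KaehlerDifferential.D K F).map_algebraMap
      ⟨algebraMap O F (y j), IntermediateField.subset_adjoin _ _ ⟨j, rfl⟩⟩
  have h1 : ∀ y : F, KaehlerDifferential.D K F y = 0 := by
    intro y
    obtain ⟨a, b, hb, rfl⟩ := IsFractionRing.div_surjective (A := O) y
    rw [Derivation.leibniz_div, h0, h0]
    simp
  have : Algebra.FormallyUnramified K F := by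
    refine ⟨subsingleton_of_forall_eq 0 fun w => ?_⟩
    have : w ∈ Submodule.span F (range (KaehlerDifferential.D K F)) := by
      rw [KaehlerDifferential.span_range_derivation]
      trivial
    refine (Submodule.mem_bot F).1 ((Submodule.span_le.2 ?_) this)
    rintro _ ⟨y, rfl⟩
    exact h1 y
  have : Algebra.EssFiniteType O F :=
    Algebra.EssFiniteType.of_isLocalization F (nonZeroDivisors O)
  have : Algebra.EssFiniteType k F := Algebra.EssFiniteType.comp k O F
  have : Algebra.EssFiniteType K F := Algebra.EssFiniteType.of_comp k K F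
  exact Algebra.FormallyUnramified.finite_of_free K F

theorem der_eval {R M : Type} [CommRing R] [AddCommGroup M] [Module O M] [Module k M]
    (δ : Derivation k O M) (φ : R →+* O) (h : ∀ r, δ (φ r) = 0) (a : O) (q : Polynomial R) :
    δ (q.eval₂ φ a) = (Polynomial.derivative q).eval₂ φ a • δ a := by
  induction q using Polynomial.induction_on' with
  | add p q hp hq => simp [Polynomial.eval₂_add, hp, hq, add_smul]
  | monomial n r =>
    simp only [Polynomial.eval₂_monomial, Polynomial.derivative_monomial, Derivation.leibniz, h,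
      smul_zero, add_zero, Derivation.leibniz_pow, map_mul, map_natCast, smul_smul,
      ← Nat.cast_smul_eq_nsmul O]
    rw [mul_assoc]

theorem der_aeval {σ M : Type} [AddCommGroup M] [Module O M] [Module k M] [IsScalarTower k O M]
    (δ : Derivation k O M) (t : σ → O) (h : ∀ i, δ (t i) = 0) (q : MvPolynomial σ k) :
    δ (MvPolynomial.aeval t q) = 0 := by
  induction q using MvPolynomial.induction_on with
  | C a => simp
  | add p q hp hq => simp [hp, hq]
  | mul_X p j hp => simp [hp, h]

/-- a polynomial of least degree that vanishes has a derivative that does not vanish -/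
theorem exists_sep {R S : Type} [CommRing R] [IsDomain R] [CharZero R] [CommRing S] (φ : R →+* S)
    (p : Ideal S) (ind : ∀ r, φ r ∈ p → r = 0) (a : S)
    (h : ∃ q : Polynomial R, q ≠ 0 ∧ q.eval₂ φ a ∈ p) :
    ∃ q : Polynomial R, q.eval₂ φ a ∈ p ∧ (Polynomial.derivative q).eval₂ φ a ∉ p := by
  obtain ⟨q, q0, hq⟩ := h
  induction hn : q.natDegree using Nat.strong_induction_on generalizing q with
  | _ n ih =>
  by_cases h1 : (Polynomial.derivative q).eval₂ φ a ∈ p
  · have hd : q.natDegree ≠ 0 := fun e => by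
      rw [Polynomial.eq_C_of_natDegree_eq_zero e] at hq q0
      rw [Polynomial.eval₂_C] at hq
      exact q0 (by rw [ind _ hq, map_zero])
    exact ih _ (hn ▸ Polynomial.natDegree_derivative_lt hd) _
      (fun e => hd (Polynomial.derivative_eq_zero.1 e)) h1 rfl
  · exact ⟨q, hq, h1⟩

/-- the differentials of the frame generate the module of differentials of the local ring -/
theorem span_gen [CharZero k] {S : Type} [CommRing S] [Algebra k S] [Algebra S O]
    [IsScalarTower k S O] (p : Ideal S) [p.IsPrime] [IsLocalRing O] [IsLocalization.AtPrime O p]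
    [Algebra.EssFiniteType k O] {σ τ : Type} [Fintype σ] (y : ι → S) (x : σ → S) (t : τ → S)
    (hx : ∀ j, ∃ i, y i = x j) (ht : ∀ j, ∃ i, y i = t j) (xp : ∀ j, x j ∈ p)
    (gen : ∀ a ∈ p, ∃ c : σ → O, algebraMap S O a = ∑ j, c j * algebraMap S O (x j))
    (ind : ∀ q : MvPolynomial τ k, MvPolynomial.aeval t q ∈ p → q = 0)
    (alg : ∀ a : S, ∃ q : Polynomial (MvPolynomial τ k), q ≠ 0 ∧
      q.eval₂ (MvPolynomial.aeval t : MvPolynomial τ k →ₐ[k] S).toRingHom a ∈ p) :
    Submodule.span O (range fun j => KaehlerDifferential.D k O (algebraMap S O (y j))) = ⊤ := by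
  rw [eq_top_iff]
  refine Submodule.le_of_le_smul_of_le_jacobson_bot (I := maximalIdeal O)
    Module.Finite.fg_top (maximalIdeal_le_jacobson _) ?_
  set W := Submodule.span O (range fun j => KaehlerDifferential.D k O (algebraMap S O (y j))) ⊔
    maximalIdeal O • ⊤ with hW
  let δ := W.mkQ.compDer (KaehlerDifferential.D k O)
  have hδ : ∀ a, δ a = 0 ↔ KaehlerDifferential.D k O a ∈ W := fun a =>
    Submodule.Quotient.mk_eq_zero W
  have hy : ∀ j, δ (algebraMap S O (y j)) = 0 := fun j =>
    (hδ _).2 (Submodule.mem_sup_left (Submodule.subset_span ⟨j, rfl⟩))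
  have hm : ∀ a ∈ maximalIdeal O, ∀ b, a • δ b = 0 := fun a ha b => by
    change a • W.mkQ _ = 0
    rw [← map_smul]
    exact (Submodule.Quotient.mk_eq_zero W).2
      (Submodule.mem_sup_right (Submodule.smul_mem_smul ha Submodule.mem_top))
  have hp : ∀ a ∈ p, δ (algebraMap S O a) = 0 := by
    intro a ha
    obtain ⟨c, e⟩ := gen a ha
    rw [e, map_sum]
    refine Finset.sum_eq_zero fun j _ => ?_
    obtain ⟨i, hi⟩ := hx j
    rw [Derivation.leibniz, ← hi, hy, smul_zero, zero_add, hi]
    exact hm _ ((IsLocalization.AtPrime.to_map_mem_maximal_iff O p _).2 (xp j)) _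
  have ht' : ∀ j, δ (algebraMap S O (t j)) = 0 := fun j => by
    obtain ⟨i, hi⟩ := ht j
    rw [← hi, hy]
  have hS : ∀ a : S, δ (algebraMap S O a) = 0 := by
    intro a
    have : CharZero (MvPolynomial τ k) := algebraRat.charZero _
    obtain ⟨q, h1, h2⟩ := exists_sep _ p ind a (alg a)
    have h3 := hp _ h1
    rw [Polynomial.hom_eval₂, der_eval δ _ (fun w => by
      have := der_aeval δ (algebraMap S O ∘ t) ht' w
      rwa [MvPolynomial.aeval_algebraMap_apply] at this), ← Polynomial.hom_eval₂] at h3
    have hu := (IsLocalization.AtPrime.isUnit_to_map_iff O p _).2 h2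
    exact (hu.smul_eq_zero).1 h3
  conv_lhs => rw [← KaehlerDifferential.span_range_derivation]
  rw [Submodule.span_le]
  rintro _ ⟨a, rfl⟩
  obtain ⟨s, u, rfl⟩ := IsLocalization.exists_mk'_eq p.primeCompl a
  have e := congrArg δ (IsLocalization.mk'_spec O s u)
  rw [Derivation.leibniz, hS, hS, smul_zero, zero_add] at e
  exact (hδ _).1 (((IsLocalization.map_units O u).smul_eq_zero).1 e)

end gen

variable {F : Type} [Field F] [Algebra ℂ F] {N : ℕ} {S : Subalgebra ℂ F}

theorem isFrac (h : Aff N S) : IsFractionRing S F := IsFractionRing.of_field S F h.fr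

/-- the local ring at `p` as a ring -/
abbrev LO (S : Subalgebra ℂ F) [IsFractionRing S F] (p : Ideal S) [p.IsPrime] : Subalgebra S F :=
  Localization.subalgebra.ofField F p.primeCompl p.primeCompl_le_nonZeroDivisors

theorem mem_LO [IsFractionRing S F] {p : Ideal S} [p.IsPrime] {a : F} :
    a ∈ LO S p ↔ a ∈ Lo S p := by
  constructor
  · rintro ⟨s, t, ht, rfl⟩
    exact ⟨s, t, ht, (div_eq_mul_inv _ _).symm⟩
  · rintro ⟨s, t, ht, rfl⟩
    exact ⟨s, t, ht, div_eq_mul_inv _ _⟩

instance [IsFractionRing S F] (p : Ideal S) [p.IsPrime] : IsLocalRing (LO S p) :=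
  IsLocalization.AtPrime.isLocalRing (LO S p) p

theorem ess (h : Aff N S) [IsFractionRing S F] (p : Ideal S) [p.IsPrime] :
    Algebra.EssFiniteType ℂ (LO S p) :=
  have : Algebra.FiniteType ℂ S := (Subalgebra.fg_iff_finiteType S).1 h.fg
  have := Algebra.EssFiniteType.of_isLocalization (LO S p) p.primeCompl
  Algebra.EssFiniteType.comp ℂ S (LO S p)

variable {k r : ℕ} {p : Ideal S} {x : Fin k → F} {t : Fin r → S}

theorem y_mem (h : Par S p x t) (j : Fin (k + r)) :
    Fin.append x (fun i => (t i : F)) j ∈ S := by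
  refine Fin.addCases (fun j => ?_) (fun i => ?_) j
  · obtain ⟨s, -, e⟩ := h.mem j
    rw [Fin.append_left, ← e]
    exact s.2
  · rw [Fin.append_right]
    exact (t i).2

theorem span_top (h : Par S p x t) [IsFractionRing S F] [p.IsPrime] :
    Submodule.span (LO S p) (range fun j => KaehlerDifferential.D ℂ (LO S p)
      (algebraMap S (LO S p) ⟨_, y_mem h j⟩)) = ⊤ := by
  have := ess h.aff p
  choose s hs e using h.mem
  refine span_gen p (fun j => (⟨_, y_mem h j⟩ : S)) s t
    (fun j => ⟨Fin.castAdd r j, Subtype.ext ?_⟩) (fun j => ⟨Fin.natAdd k j, Subtype.ext ?_⟩) hs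
    (fun a ha => ?_) h.ind h.alg
  · change Fin.append x (fun i => (t i : F)) (Fin.castAdd r j) = s j
    rw [Fin.append_left, e]
  · change Fin.append x (fun i => (t i : F)) (Fin.natAdd k j) = t j
    rw [Fin.append_right]
  · obtain ⟨c, hc, e'⟩ := h.gen a ha
    refine ⟨fun j => ⟨c j, mem_LO.2 (hc j)⟩, Subtype.ext ?_⟩
    rw [AddSubmonoidClass.coe_finsetSum]
    refine e'.trans (Finset.sum_congr rfl fun j _ => ?_)
    rw [← e j]
    rfl

end Der

open Der in
/-- the frame of a point, the dual derivations preserve the local ring -/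
theorem der_frame {F : Type} [Field F] [Algebra ℂ F] {S : Subalgebra ℂ F} {k r : ℕ} {p : Ideal S}
    {x : Fin k → F} {t : Fin r → S} (h : Par S p x t) :
    ∃ D : Fin (k + r) → Derivation ℂ F F, Fr (Fin.append x fun i => (t i : F)) D ∧
      ∀ j, ∀ a ∈ Lo S p, D j a ∈ Lo S p := by
  have := isFrac h.aff
  have := h.pri
  have := ess h.aff p
  have hs := span_top h
  have hf : FiniteDimensional
      (IntermediateField.adjoin ℂ (range (Fin.append x fun i => (t i : F)))) F :=
    fin_of_span hs F
  have := Cb.alg_of_fin hf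
  have hb : IsTranscendenceBasis ℂ (Fin.append x fun i => (t i : F)) :=
    Algebra.IsAlgebraic.isTranscendenceBasis_of_le_trdeg_of_finite ℂ _ (by simp [h.aff.ff.trdeg])
  obtain ⟨D, hD⟩ := Cb.fr_of h.aff.ff hb.1
  refine ⟨D, hD, fun j a ha => ?_⟩
  have h1 := der_of_span hs ((D j).compAlgebraMap (LO S p)) ⟨a, mem_LO.2 ha⟩
  rw [← mem_LO]
  change (D j).compAlgebraMap (LO S p) ⟨a, mem_LO.2 ha⟩ ∈ LO S p
  refine Submodule.span_induction (fun w hw => ?_) (zero_mem _) (fun _ _ _ _ => add_mem)
    (fun c w _ hw => mul_mem c.2 hw) h1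
  obtain ⟨i, rfl⟩ := hw
  change D j (Fin.append x (fun i => (t i : F)) i) ∈ LO S p
  rw [hD.dual]
  split_ifs
  · exact one_mem _
  · exact zero_mem _

end Vale.Agent.P283R
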