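import Vale.Agent.P283R.Tp.Sem
import Vale.Agent.P283R.Tp.Kap
import Vale.Agent.P283R.Tp.Hrt

/-!
# P283R: the row SEM
-/

namespace Vale.Agent.P283R

/-- **SEM** -/
theorem sem : SEM := sem_of kap' hrt

end Vale.Agent.P283R
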